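import Claimed.Agent.Lib.PLLaplace

/-!
# Row 286, BOX-A: the Brascamp–Lieb variance inequality (BL76, Theorem 4.1), inverse-Hessian form WITHOUT matrix inverses   (owner helper252; prefix `sk_bl_`; complete, axioms standard)

`E` a finite dimensional real inner product space, `U : E → ℝ` twice differentiable with `U'' ≥ 1`, `f`, `J` twice differentiable with bounded
first and second derivatives, `J ≥ 0` and `(f'(x) v)² ≤ U''(x)(v,v) J(x)` for all `x, v` (that is `⟨∇f, (U'')⁻¹ ∇f⟩ ≤ J`).   Then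
`Var_μ f ≤ ∫ J dμ`, `μ ∝ exp(-U) dx`:

* `sk_bl_var`  : unnormalised form `(∫ f² w)(∫ w) - (∫ f w)² ≤ (∫ J w)(∫ w)`, `w = exp(-U)`;
* `sk_bl_int0`, `sk_bl_int1`, `sk_bl_int2`, `sk_bl_int` : integrability of `w`, `F w`, `F² w` (`F` with bounded derivative), `q w` (`q` of exponential growth).
Derivatives are DATA (`SkC2 F F' F''`): no `fderiv`, no `iteratedFDeriv`.
Proof: Prékopa (`Lib/PLConvex.pl_prekopa_mul`) for `W(t,x) = U - t f + t² g / 2`, `g = (1+δ) J + δ`, at the midpoint of `-t, t`; second order expansion in `t`.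
-/

set_option autoImplicit false
open MeasureTheory Set Filter Topology
open scoped RealInnerProductSpace

namespace Claimed.Agent.R286

section sk_bl_part0

section oneD

/-- midpoint convexity from a nonnegative second derivative on `[-1,1]`. -/
theorem sk_bl_mid {φ φ' φ'' : ℝ → ℝ} (h1 : ∀ s, HasDerivAt φ (φ' s) s)
    (h2 : ∀ s, HasDerivAt φ' (φ'' s) s) (h3 : ∀ s ∈ Icc (-1 : ℝ) 1, 0 ≤ φ'' s) :
    φ 0 ≤ (φ 1 + φ (-1)) / 2 := by
  have hc : ConvexOn ℝ (Icc (-1 : ℝ) 1) φ := by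
    refine convexOn_of_hasDerivWithinAt2_nonneg (convex_Icc _ _) (f' := φ') (f'' := φ'')
      (fun s _ => (h1 s).continuousAt.continuousWithinAt)
      (fun s _ => (h1 s).hasDerivWithinAt) (fun s _ => (h2 s).hasDerivWithinAt)
      (fun s hs => h3 s (interior_subset hs))
  have := hc.2 (show (1 : ℝ) ∈ Icc (-1 : ℝ) 1 by norm_num) (show (-1 : ℝ) ∈ Icc (-1 : ℝ) 1 by norm_num)
    (show (0 : ℝ) ≤ 1 / 2 by norm_num) (show (0 : ℝ) ≤ 1 / 2 by norm_num) (by norm_num)
  simp only [smul_eq_mul] at this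
  norm_num at this
  linarith

/-- tangent line inequality with quadratic gain. -/
theorem sk_bl_tangent {φ φ' φ'' : ℝ → ℝ} {c : ℝ} (h1 : ∀ s, HasDerivAt φ (φ' s) s)
    (h2 : ∀ s, HasDerivAt φ' (φ'' s) s) (h3 : ∀ s, c ≤ φ'' s) :
    φ 0 + φ' 0 + c / 2 ≤ φ 1 := by
  -- χ s = φ s - φ' 0 * s - c s^2/2 has χ' monotone, χ' 0 = 0
  have hd : ∀ s, HasDerivAt (fun s => φ' s - φ' 0 - c * s) (φ'' s - c) s := by
    intro s
    have e : HasDerivAt (fun s => φ' s - φ' 0 - c * s) (φ'' s - c * 1) s :=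
      ((h2 s).sub_const (φ' 0)).sub ((hasDerivAt_id' s).const_mul c)
    exact e.congr_deriv (by ring)
  have hm : Monotone (fun s => φ' s - φ' 0 - c * s) := by
    apply monotone_of_deriv_nonneg (fun s => (hd s).differentiableAt)
    intro s
    rw [(hd s).deriv]
    have := h3 s
    linarith
  have hχ : ∀ s, HasDerivAt (fun s => φ s - φ' 0 * s - c * s ^ 2 / 2) (φ' s - φ' 0 - c * s) s := by
    intro s
    have e : HasDerivAt (fun s => φ s - φ' 0 * s - c * s ^ 2 / 2) _ s :=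
      ((h1 s).sub ((hasDerivAt_id' s).const_mul (φ' 0))).sub
      (((hasDerivAt_pow 2 s).const_mul c).div_const 2)
    exact e.congr_deriv (by simp; ring)
  have hmono : MonotoneOn (fun s => φ s - φ' 0 * s - c * s ^ 2 / 2) (Icc (0 : ℝ) 1) := by
    apply monotoneOn_of_deriv_nonneg (convex_Icc _ _)
    · exact fun s _ => (hχ s).continuousAt.continuousWithinAt
    · exact fun s _ => (hχ s).differentiableAt.differentiableWithinAt
    · intro s hs
      rw [(hχ s).deriv]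
      rw [interior_Icc] at hs
      have := hm hs.1.le
      simpa using this
  have := hmono (a := 0) (b := 1) (by norm_num) (by norm_num) (by norm_num)
  norm_num at this
  linarith

/-- the cubic Taylor polynomial is a global lower bound of `exp`. -/
theorem sk_bl_exp_cubic (h : ℝ) : 1 + h + h ^ 2 / 2 + h ^ 3 / 6 ≤ Real.exp h := by
  -- k2 = exp - T2 is monotone, k2 0 = 0
  have d2 : ∀ s : ℝ, HasDerivAt (fun s => Real.exp s - (1 + s + s ^ 2 / 2)) (Real.exp s - (1 + s)) s := by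
    intro s
    have e : HasDerivAt (fun s => Real.exp s - (1 + s + s ^ 2 / 2)) _ s :=
      (Real.hasDerivAt_exp s).sub (((hasDerivAt_const s (1 : ℝ)).add (hasDerivAt_id' s)).add
      ((hasDerivAt_pow 2 s).div_const 2))
    exact e.congr_deriv (by simp)
  have m2 : Monotone (fun s => Real.exp s - (1 + s + s ^ 2 / 2)) := by
    apply monotone_of_deriv_nonneg (fun s => (d2 s).differentiableAt)
    intro s
    rw [(d2 s).deriv]
    have := Real.add_one_le_exp s
    linarith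
  have d3 : ∀ s : ℝ, HasDerivAt (fun s => Real.exp s - (1 + s + s ^ 2 / 2 + s ^ 3 / 6))
      (Real.exp s - (1 + s + s ^ 2 / 2)) s := by
    intro s
    have e : HasDerivAt (fun s => Real.exp s - (1 + s + s ^ 2 / 2 + s ^ 3 / 6)) _ s :=
      (Real.hasDerivAt_exp s).sub ((((hasDerivAt_const s (1 : ℝ)).add (hasDerivAt_id' s)).add
      ((hasDerivAt_pow 2 s).div_const 2)).add ((hasDerivAt_pow 3 s).div_const 6))
    exact e.congr_deriv (by simp; ring)
  rcases le_total 0 h with hh | hh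
  · have hmono : MonotoneOn (fun s => Real.exp s - (1 + s + s ^ 2 / 2 + s ^ 3 / 6)) (Ici (0 : ℝ)) := by
      apply monotoneOn_of_deriv_nonneg (convex_Ici _)
      · exact fun s _ => (d3 s).continuousAt.continuousWithinAt
      · exact fun s _ => (d3 s).differentiableAt.differentiableWithinAt
      · intro s hs
        rw [(d3 s).deriv]
        rw [interior_Ici] at hs
        have := m2 (le_of_lt hs)
        simpa using this
    have := hmono (a := 0) (b := h) (by simp) hh hh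
    simp at this
    linarith
  · have hanti : AntitoneOn (fun s => Real.exp s - (1 + s + s ^ 2 / 2 + s ^ 3 / 6)) (Iic (0 : ℝ)) := by
      apply antitoneOn_of_deriv_nonpos (convex_Iic _)
      · exact fun s _ => (d3 s).continuousAt.continuousWithinAt
      · exact fun s _ => (d3 s).differentiableAt.differentiableWithinAt
      · intro s hs
        rw [(d3 s).deriv]
        rw [interior_Iic] at hs
        have := m2 (le_of_lt hs)
        simpa using this
    have := hanti (a := h) (b := 0) hh (by simp) hh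
    simp at this
    linarith

/-- AM-GM in the form used below. -/
theorem sk_bl_amgm {p X Y c : ℝ} (hX : 0 ≤ X) (hY : 0 ≤ Y) (hc : 0 < c) (h : p ^ 2 ≤ X * Y) :
    2 * |p| ≤ X / c + c * Y := by
  have h0 : 0 ≤ X / c + c * Y := by positivity
  have h1 : (2 * |p|) ^ 2 ≤ (X / c + c * Y) ^ 2 := by
    have e : (X / c + c * Y) ^ 2 = (X / c - c * Y) ^ 2 + 4 * (X * Y) := by
      field_simp
      ring
    rw [e, mul_pow, sq_abs]
    nlinarith [sq_nonneg (X / c - c * Y)]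
  exact abs_le_of_sq_le_sq' h1 h0 |>.2 |> fun h => by simpa using h

end oneD

section lines

variable {E : Type*} [NormedAddCommGroup E] [NormedSpace ℝ E]

/-- `F` is twice differentiable with first and second derivatives `F'`, `F''`. -/
structure SkC2 (F : E → ℝ) (F' : E → E →L[ℝ] ℝ) (F'' : E → E →L[ℝ] E →L[ℝ] ℝ) : Prop where
  d1 : ∀ x, HasFDerivAt F (F' x) x
  d2 : ∀ x, HasFDerivAt F' (F'' x) x

theorem sk_bl_line (m d : E) (s : ℝ) : HasDerivAt (fun s : ℝ => m + s • d) d s := by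
  have e : HasDerivAt (fun s : ℝ => m + s • d) ((1 : ℝ) • d) s :=
    ((hasDerivAt_id' s).smul_const d).const_add m
  simpa using e

theorem SkC2.line1 {F : E → ℝ} {F' : E → E →L[ℝ] ℝ} {F'' : E → E →L[ℝ] E →L[ℝ] ℝ}
    (h : SkC2 F F' F'') (m d : E) (s : ℝ) :
    HasDerivAt (fun s : ℝ => F (m + s • d)) (F' (m + s • d) d) s :=
  (h.d1 (m + s • d)).comp_hasDerivAt s (sk_bl_line m d s)

theorem SkC2.line2 {F : E → ℝ} {F' : E → E →L[ℝ] ℝ} {F'' : E → E →L[ℝ] E →L[ℝ] ℝ}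
    (h : SkC2 F F' F'') (m d : E) (s : ℝ) :
    HasDerivAt (fun s : ℝ => F' (m + s • d) d) (F'' (m + s • d) d d) s := by
  have e1 : HasDerivAt (fun s : ℝ => F' (m + s • d)) (F'' (m + s • d) d) s :=
    (h.d2 (m + s • d)).comp_hasDerivAt s (sk_bl_line m d s)
  have e2 := e1.clm_apply (hasDerivAt_const s d)
  simpa using e2

theorem SkC2.continuous {F : E → ℝ} {F' : E → E →L[ℝ] ℝ} {F'' : E → E →L[ℝ] E →L[ℝ] ℝ}
    (h : SkC2 F F' F'') : Continuous F :=
  continuous_iff_continuousAt.2 fun x => (h.d1 x).continuousAt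

/-- **Key convexity inequality.** -/
theorem sk_bl_key {U f g J : E → ℝ} {U' f' g' : E → E →L[ℝ] ℝ}
    {U'' f'' g'' : E → E →L[ℝ] E →L[ℝ] ℝ}
    (hU : SkC2 U U' U'') (hf : SkC2 f f' f'') (hg : SkC2 g g' g'') {C δ t : ℝ}
    (hδ : 0 < δ) (hC : 0 ≤ C)
    (hf2 : ∀ x, ‖f'' x‖ ≤ C) (hg1 : ∀ x, ‖g' x‖ ≤ C) (hg2 : ∀ x, ‖g'' x‖ ≤ C)
    (hconv : ∀ x v, ‖v‖ ^ 2 ≤ U'' x v v)
    (hJ : ∀ x v, (f' x v) ^ 2 ≤ U'' x v v * J x) (hJ0 : ∀ x, 0 ≤ J x)
    (hgJ : ∀ x, (1 + δ) * J x + δ ≤ g x)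
    (ht : |t| * C + 2 * t ^ 2 * C ^ 2 / δ + t ^ 2 * C / 2 ≤ δ / (1 + δ))
    (y0 y1 : E) :
    U ((1 / 2 : ℝ) • y0 + (1 / 2 : ℝ) • y1)
      ≤ (1 / 2) * (U y0 + t * f y0 + t ^ 2 * g y0 / 2)
        + (1 / 2) * (U y1 - t * f y1 + t ^ 2 * g y1 / 2) := by
  set m : E := (1 / 2 : ℝ) • y0 + (1 / 2 : ℝ) • y1 with hm
  set d : E := (1 / 2 : ℝ) • (y1 - y0) with hd
  have e1 : m + (1 : ℝ) • d = y1 := by rw [hm, hd]; module
  have e2 : m + (-1 : ℝ) • d = y0 := by rw [hm, hd]; module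
  have e0 : m + (0 : ℝ) • d = m := by simp
  set φ : ℝ → ℝ := fun s => U (m + s • d) - (s * t) * f (m + s • d)
    + (s * t) ^ 2 * g (m + s • d) / 2 with hφ
  set φ' : ℝ → ℝ := fun s => U' (m + s • d) d - (t * f (m + s • d) + (s * t) * f' (m + s • d) d)
    + ((2 * (s * t) * t) * g (m + s • d) + (s * t) ^ 2 * g' (m + s • d) d) / 2 with hφ'
  set φ'' : ℝ → ℝ := fun s => U'' (m + s • d) d d - 2 * t * f' (m + s • d) d
    - s * t * f'' (m + s • d) d d + t ^ 2 * g (m + s • d) + 2 * s * t ^ 2 * g' (m + s • d) d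
    + (s * t) ^ 2 * g'' (m + s • d) d d / 2 with hφ''
  have hst : ∀ s : ℝ, HasDerivAt (fun s : ℝ => s * t) t s := fun s => by
    simpa using (hasDerivAt_id' s).mul_const t
  have hst2 : ∀ s : ℝ, HasDerivAt (fun s : ℝ => (s * t) ^ 2) (2 * (s * t) * t) s := fun s => by
    have e : HasDerivAt (fun s : ℝ => (s * t) * (s * t)) (t * (s * t) + (s * t) * t) s :=
      (hst s).mul (hst s)
    have e' : (fun s : ℝ => (s * t) ^ 2) = fun s : ℝ => (s * t) * (s * t) := by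
      funext s; ring
    rw [e']
    exact e.congr_deriv (by ring)
  have h1 : ∀ s, HasDerivAt φ (φ' s) s := by
    intro s
    exact ((hU.line1 m d s).sub ((hst s).mul (hf.line1 m d s))).add
      (((hst2 s).mul (hg.line1 m d s)).div_const 2)
  have hst3 : ∀ s : ℝ, HasDerivAt (fun s : ℝ => 2 * (s * t) * t) (2 * t * t) s := fun s => by
    exact ((hst s).const_mul 2).mul_const t
  have h2 : ∀ s, HasDerivAt φ' (φ'' s) s := by
    intro s
    have e := ((hU.line2 m d s).sub (((hf.line1 m d s).const_mul t).add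
      ((hst s).mul (hf.line2 m d s)))).add
      ((((hst3 s).mul (hg.line1 m d s)).add ((hst2 s).mul (hg.line2 m d s))).div_const 2)
    exact e.congr_deriv (by simp only [hφ'']; ring)
  have h3 : ∀ s ∈ Icc (-1 : ℝ) 1, 0 ≤ φ'' s := by
    intro s hs
    have hs1 : |s| ≤ 1 := abs_le.2 hs
    set x : E := m + s • d with hx
    set D : ℝ := ‖d‖ with hD
    have hD0 : 0 ≤ D := norm_nonneg d
    set a : ℝ := U'' x d d with ha
    have ha1 : D ^ 2 ≤ a := hconv x d
    have ha0 : 0 ≤ a := le_trans (sq_nonneg D) ha1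
    have hp : (t * f' x d) ^ 2 ≤ a * (t ^ 2 * J x) := by
      have := mul_le_mul_of_nonneg_left (hJ x d) (sq_nonneg t)
      calc (t * f' x d) ^ 2 = t ^ 2 * (f' x d) ^ 2 := by ring
        _ ≤ t ^ 2 * (a * J x) := this
        _ = a * (t ^ 2 * J x) := by ring
    have i1 := sk_bl_amgm ha0 (mul_nonneg (sq_nonneg t) (hJ0 x)) (by linarith : (0 : ℝ) < 1 + δ) hp
    have i1' : 2 * (t * f' x d) ≤ a / (1 + δ) + (1 + δ) * (t ^ 2 * J x) :=
      le_trans (by have := le_abs_self (t * f' x d); linarith) i1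
    have i2 : t ^ 2 * ((1 + δ) * J x + δ) ≤ t ^ 2 * g x :=
      mul_le_mul_of_nonneg_left (hgJ x) (sq_nonneg t)
    have q2 : |f'' x d d| ≤ C * D ^ 2 := by
      have := (f'' x).le_opNorm₂ d d
      rw [Real.norm_eq_abs] at this
      calc |f'' x d d| ≤ ‖f'' x‖ * D * D := this
        _ ≤ C * D * D := by gcongr; exact hf2 x
        _ = C * D ^ 2 := by ring
    have r1 : |g' x d| ≤ C * D := by
      have := (g' x).le_opNorm d
      rw [Real.norm_eq_abs] at this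
      exact le_trans this (by gcongr; exact hg1 x)
    have r2 : |g'' x d d| ≤ C * D ^ 2 := by
      have := (g'' x).le_opNorm₂ d d
      rw [Real.norm_eq_abs] at this
      calc |g'' x d d| ≤ ‖g'' x‖ * D * D := this
        _ ≤ C * D * D := by gcongr; exact hg2 x
        _ = C * D ^ 2 := by ring
    have i3 : s * t * f'' x d d ≤ |t| * C * D ^ 2 := by
      calc s * t * f'' x d d ≤ |s * t * f'' x d d| := le_abs_self _
        _ = |s| * |t| * |f'' x d d| := by rw [abs_mul, abs_mul]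
        _ ≤ 1 * |t| * (C * D ^ 2) := by gcongr
        _ = |t| * C * D ^ 2 := by ring
    have i4a : 2 * C * D ≤ δ / 2 + 2 * C ^ 2 * D ^ 2 / δ := by
      rw [← sub_nonneg]
      have : δ / 2 + 2 * C ^ 2 * D ^ 2 / δ - 2 * C * D = (δ - 2 * C * D) ^ 2 / (2 * δ) := by
        field_simp
        ring
      rw [this]
      positivity
    have i4 : -(2 * s * t ^ 2 * g' x d) ≤ t ^ 2 * (δ / 2 + 2 * C ^ 2 * D ^ 2 / δ) := by
      calc -(2 * s * t ^ 2 * g' x d) ≤ |2 * s * t ^ 2 * g' x d| := neg_le_abs _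
        _ = 2 * |s| * t ^ 2 * |g' x d| := by
            rw [abs_mul, abs_mul, abs_mul, abs_of_nonneg (sq_nonneg t), abs_of_pos (by norm_num : (0:ℝ) < 2)]
        _ ≤ 2 * 1 * t ^ 2 * (C * D) := by gcongr
        _ = t ^ 2 * (2 * C * D) := by ring
        _ ≤ t ^ 2 * (δ / 2 + 2 * C ^ 2 * D ^ 2 / δ) :=
            mul_le_mul_of_nonneg_left i4a (sq_nonneg t)
    have i5 : -((s * t) ^ 2 * g'' x d d / 2) ≤ t ^ 2 * C * D ^ 2 / 2 := by
      have hs2 : s ^ 2 ≤ 1 := by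
        have := sq_le_sq' (by linarith [hs.1]) hs.2
        simpa using this
      calc -((s * t) ^ 2 * g'' x d d / 2) ≤ |(s * t) ^ 2 * g'' x d d / 2| := neg_le_abs _
        _ = s ^ 2 * t ^ 2 * |g'' x d d| / 2 := by
            rw [abs_div, abs_mul, abs_of_nonneg (sq_nonneg (s * t)), abs_of_pos (by norm_num : (0:ℝ) < 2)]
            ring
        _ ≤ 1 * t ^ 2 * (C * D ^ 2) / 2 := by gcongr
        _ = t ^ 2 * C * D ^ 2 / 2 := by ring
    have i6 : D ^ 2 * (|t| * C + 2 * t ^ 2 * C ^ 2 / δ + t ^ 2 * C / 2) ≤ D ^ 2 * (δ / (1 + δ)) :=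
      mul_le_mul_of_nonneg_left ht (sq_nonneg D)
    have i7 : D ^ 2 * (δ / (1 + δ)) ≤ a * (δ / (1 + δ)) :=
      mul_le_mul_of_nonneg_right ha1 (by positivity)
    have i8 : a - a / (1 + δ) = a * (δ / (1 + δ)) := by
      field_simp
      ring
    have i9 : t ^ 2 * (2 * C ^ 2 * D ^ 2 / δ) = D ^ 2 * (2 * t ^ 2 * C ^ 2 / δ) := by ring
    have i10 : 0 ≤ δ * t ^ 2 / 2 := by positivity
    simp only [hφ'']
    change 0 ≤ a - 2 * t * f' x d - s * t * f'' x d d + t ^ 2 * g x + 2 * s * t ^ 2 * g' x d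
      + (s * t) ^ 2 * g'' x d d / 2
    nlinarith [i1', i2, i3, i4, i5, i6, i7, i8, i9, i10]
  have key := sk_bl_mid h1 h2 h3
  simp only [hφ] at key
  rw [e0, e1, e2] at key
  simp only [zero_mul, one_mul, neg_mul] at key
  have : ((0 : ℝ)) ^ 2 * g m / 2 = 0 := by ring
  nlinarith [key]

end lines

end sk_bl_part0

section sk_bl_part1

variable {E : Type*} [NormedAddCommGroup E] [InnerProductSpace ℝ E]

/-- quadratic lower bound of a uniformly convex potential. -/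
theorem sk_bl_lower {U : E → ℝ} {U' : E → E →L[ℝ] ℝ} {U'' : E → E →L[ℝ] E →L[ℝ] ℝ}
    (hU : SkC2 U U' U'') (hconv : ∀ x v, ‖v‖ ^ 2 ≤ U'' x v v) (x : E) :
    U 0 - ‖U' 0‖ * ‖x‖ + ‖x‖ ^ 2 / 2 ≤ U x := by
  have := sk_bl_tangent (φ := fun s : ℝ => U (0 + s • x)) (φ' := fun s : ℝ => U' (0 + s • x) x)
    (φ'' := fun s : ℝ => U'' (0 + s • x) x x) (c := ‖x‖ ^ 2)
    (fun s => hU.line1 0 x s) (fun s => hU.line2 0 x s) (fun s => hconv _ x)
  simp only [zero_smul, add_zero, one_smul, zero_add] at this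
  have h2 : -(‖U' 0‖ * ‖x‖) ≤ U' 0 x := by
    have := (U' 0).le_opNorm x
    rw [Real.norm_eq_abs] at this
    have := neg_abs_le (U' 0 x)
    linarith
  linarith

/-- linear growth from a bounded derivative. -/
theorem sk_bl_growth {f : E → ℝ} {f' : E → E →L[ℝ] ℝ} {C : ℝ}
    (h1 : ∀ x, HasFDerivAt f (f' x) x) (hb : ∀ x, ‖f' x‖ ≤ C) (x : E) :
    |f x| ≤ |f 0| + C * ‖x‖ := by
  have := Convex.norm_image_sub_le_of_norm_hasFDerivWithin_le (f := f) (f' := f') (s := univ)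
    (x := 0) (y := x) (C := C) (fun x _ => (h1 x).hasFDerivWithinAt) (fun x _ => hb x) convex_univ
    (mem_univ _) (mem_univ _)
  rw [Real.norm_eq_abs, sub_zero] at this
  have h2 : |f x| ≤ |f x - f 0| + |f 0| := by
    have := abs_add_le (f x - f 0) (f 0)
    simpa using this
  linarith

variable [FiniteDimensional ℝ E] [MeasurableSpace E] [BorelSpace E]

/-- integrability against `exp (-U)` of continuous functions of exponential growth. -/
theorem sk_bl_int {U : E → ℝ} {U' : E → E →L[ℝ] ℝ} {U'' : E → E →L[ℝ] E →L[ℝ] ℝ}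
    (hU : SkC2 U U' U'') (hconv : ∀ x v, ‖v‖ ^ 2 ≤ U'' x v v) {q : E → ℝ} (hq : Continuous q)
    {A B : ℝ} (hb : ∀ x, |q x| ≤ A * Real.exp (B * ‖x‖)) :
    Integrable (fun x => q x * Real.exp (-U x)) := by
  set c : ℝ := ‖U' 0‖ with hc
  have hA : 0 ≤ A := by
    have := le_trans (abs_nonneg _) (hb 0)
    simpa using this
  refine Integrable.mono' ((PL.pl_integrable_exp_neg_mul_sq (E := E) (b := 1 / 4)
    (by norm_num)).const_mul (A * Real.exp (-U 0 + (B + c) ^ 2))) ?_ ?_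
  · exact (hq.mul (Real.continuous_exp.comp hU.continuous.neg)).aestronglyMeasurable
  · refine Eventually.of_forall fun x => ?_
    rw [Real.norm_eq_abs, abs_mul, abs_of_pos (Real.exp_pos _)]
    have h1 := sk_bl_lower hU hconv x
    have h2 : Real.exp (B * ‖x‖) * Real.exp (-U x)
        ≤ Real.exp (-U 0 + (B + c) ^ 2) * Real.exp (-(1 / 4) * ‖x‖ ^ 2) := by
      rw [← Real.exp_add, ← Real.exp_add]
      apply Real.exp_le_exp.2
      nlinarith [sq_nonneg (‖x‖ / 2 - (B + c))]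
    calc |q x| * Real.exp (-U x) ≤ A * Real.exp (B * ‖x‖) * Real.exp (-U x) := by
          gcongr; exact hb x
      _ = A * (Real.exp (B * ‖x‖) * Real.exp (-U x)) := by ring
      _ ≤ A * (Real.exp (-U 0 + (B + c) ^ 2) * Real.exp (-(1 / 4) * ‖x‖ ^ 2)) := by gcongr
      _ = A * Real.exp (-U 0 + (B + c) ^ 2) * Real.exp (-(1 / 4) * ‖x‖ ^ 2) := by ring

/-- Prékopa at the midpoint. -/
theorem sk_bl_pl {U f g J : E → ℝ} {U' f' g' : E → E →L[ℝ] ℝ}
    {U'' f'' g'' : E → E →L[ℝ] E →L[ℝ] ℝ}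
    (hU : SkC2 U U' U'') (hf : SkC2 f f' f'') (hg : SkC2 g g' g'') {C δ t : ℝ}
    (hδ : 0 < δ) (hC : 0 ≤ C)
    (hf2 : ∀ x, ‖f'' x‖ ≤ C) (hg1 : ∀ x, ‖g' x‖ ≤ C) (hg2 : ∀ x, ‖g'' x‖ ≤ C)
    (hconv : ∀ x v, ‖v‖ ^ 2 ≤ U'' x v v)
    (hJ : ∀ x v, (f' x v) ^ 2 ≤ U'' x v v * J x) (hJ0 : ∀ x, 0 ≤ J x)
    (hgJ : ∀ x, (1 + δ) * J x + δ ≤ g x)
    (ht : |t| * C + 2 * t ^ 2 * C ^ 2 / δ + t ^ 2 * C / 2 ≤ δ / (1 + δ))
    (hi0 : Integrable (fun y => Real.exp (-U y)))
    (hi1 : Integrable (fun y => Real.exp (-(U y + t * f y + t ^ 2 * g y / 2))))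
    (hi2 : Integrable (fun y => Real.exp (-(U y - t * f y + t ^ 2 * g y / 2)))) :
    (∫ y, Real.exp (-(U y + t * f y + t ^ 2 * g y / 2)))
      * (∫ y, Real.exp (-(U y - t * f y + t ^ 2 * g y / 2))) ≤ (∫ y, Real.exp (-U y)) ^ 2 := by
  set W : ℝ → E → ℝ := fun r y => U y - r * f y + r ^ 2 * g y / 2 with hW
  have hz : ((1 : ℝ) - 1 / 2) • (-t) + (1 / 2 : ℝ) • t = 0 := by
    simp only [smul_eq_mul]; ring
  have hWm : ∀ r, Measurable (W r) := fun r =>
    ((hU.continuous.sub (continuous_const.mul hf.continuous)).add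
      ((continuous_const.mul hg.continuous).div_const 2)).measurable
  have w0 : W 0 = U := by funext y; simp [hW]
  have w1 : W (-t) = fun y => U y + t * f y + t ^ 2 * g y / 2 := by
    funext y; simp only [hW]; ring
  have w2 : W t = fun y => U y - t * f y + t ^ 2 * g y / 2 := rfl
  have key := PL.pl_prekopa_mul (PL.plProp_addHaar (volume : Measure E)) (W := W) (x₀ := -t) (x₁ := t)
    (t := 1 / 2) (by norm_num) (by norm_num) (hWm _) (hWm _) (hWm _)
    (by
      intro y₀ y₁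
      rw [hz, w0, w1, w2]
      have := sk_bl_key hU hf hg hδ hC hf2 hg1 hg2 hconv hJ hJ0 hgJ ht y₀ y₁
      have h12 : (1 : ℝ) - 1 / 2 = 1 / 2 := by norm_num
      rw [h12]
      exact this)
    (by rw [w1]; exact hi1) (by rw [w2]; exact hi2) (by rw [hz, w0]; exact hi0)
  rw [hz, w0, w1, w2] at key
  have h12 : (1 : ℝ) - 1 / 2 = 1 / 2 := by norm_num
  rw [h12] at key
  set A := ∫ y, Real.exp (-(U y + t * f y + t ^ 2 * g y / 2)) with hA
  set B := ∫ y, Real.exp (-(U y - t * f y + t ^ 2 * g y / 2)) with hB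
  have hA0 : 0 ≤ A := integral_nonneg fun _ => (Real.exp_pos _).le
  have hB0 : 0 ≤ B := integral_nonneg fun _ => (Real.exp_pos _).le
  have e : (A ^ (1 / 2 : ℝ) * B ^ (1 / 2 : ℝ)) ^ 2 = A * B := by
    rw [mul_pow, ← Real.sqrt_eq_rpow, ← Real.sqrt_eq_rpow, Real.sq_sqrt hA0, Real.sq_sqrt hB0]
  rw [← e]
  exact pow_le_pow_left₀ (by positivity) key 2

end sk_bl_part1

section sk_bl_part2

/-- pointwise second order lower bound. -/
theorem sk_bl_pt {τ a b : ℝ} (hτ : |τ| ≤ 1) :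
    1 + τ * a - τ ^ 2 * b / 2 + τ ^ 2 * a ^ 2 / 2
        - |τ| ^ 3 * (|a * b| / 2 + (|a| + |b|) ^ 3 / 6)
      ≤ Real.exp (τ * a - τ ^ 2 * b / 2) := by
  set h : ℝ := τ * a - τ ^ 2 * b / 2 with hh
  have h0 := sk_bl_exp_cubic h
  have hτ0 : 0 ≤ |τ| := abs_nonneg τ
  have ht2 : τ ^ 2 = |τ| ^ 2 := (sq_abs τ).symm
  -- |h| ≤ |τ| (|a|+|b|)
  have h1 : |h| ≤ |τ| * (|a| + |b|) := by
    calc |h| ≤ |τ * a| + |τ ^ 2 * b / 2| := abs_sub _ _
      _ = |τ| * |a| + |τ| ^ 2 * |b| / 2 := by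
          rw [abs_mul, abs_div, abs_mul, abs_of_nonneg (sq_nonneg τ), ht2,
            abs_of_pos (by norm_num : (0 : ℝ) < 2)]
      _ ≤ |τ| * |a| + |τ| * |b| := by
          have : |τ| ^ 2 * |b| / 2 ≤ |τ| * |b| := by
            have hb := abs_nonneg b
            nlinarith [mul_nonneg hτ0 hb, mul_nonneg (mul_nonneg hτ0 hb) (sub_nonneg.2 hτ)]
          linarith
      _ = |τ| * (|a| + |b|) := by ring
  have h2 : -(|τ| ^ 3 * (|a| + |b|) ^ 3) ≤ h ^ 3 := by
    have e1 : |h| ^ 3 ≤ (|τ| * (|a| + |b|)) ^ 3 := pow_le_pow_left₀ (abs_nonneg h) h1 3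
    have e2 : -|h| ^ 3 ≤ h ^ 3 := by
      have := neg_abs_le (h ^ 3)
      rwa [abs_pow] at this
    have e3 : (|τ| * (|a| + |b|)) ^ 3 = |τ| ^ 3 * (|a| + |b|) ^ 3 := by ring
    linarith
  have h3 : τ ^ 2 * a ^ 2 / 2 - |τ| ^ 3 * |a * b| / 2 ≤ h ^ 2 / 2 := by
    have e1 : h ^ 2 / 2 = τ ^ 2 * a ^ 2 / 2 - τ ^ 3 * (a * b) / 2 + τ ^ 4 * b ^ 2 / 8 := by
      rw [hh]; ring
    have e2 : τ ^ 3 * (a * b) ≤ |τ| ^ 3 * |a * b| := by
      calc τ ^ 3 * (a * b) ≤ |τ ^ 3 * (a * b)| := le_abs_self _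
        _ = |τ| ^ 3 * |a * b| := by rw [abs_mul, abs_pow]
    have e3 : 0 ≤ τ ^ 4 * b ^ 2 / 8 := by positivity
    linarith
  linarith

variable {E : Type*} [NormedAddCommGroup E] [InnerProductSpace ℝ E]
  [FiniteDimensional ℝ E] [MeasurableSpace E] [BorelSpace E]

/-- **Core inequality** (centred `f`, smooth majorant `g`). -/
theorem sk_bl_core {U f g J : E → ℝ} {U' f' g' : E → E →L[ℝ] ℝ}
    {U'' f'' g'' : E → E →L[ℝ] E →L[ℝ] ℝ}
    (hU : SkC2 U U' U'') (hf : SkC2 f f' f'') (hg : SkC2 g g' g'') {C δ : ℝ}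
    (hδ : 0 < δ) (hC : 0 ≤ C) (hf1 : ∀ x, ‖f' x‖ ≤ C)
    (hf2 : ∀ x, ‖f'' x‖ ≤ C) (hg1 : ∀ x, ‖g' x‖ ≤ C) (hg2 : ∀ x, ‖g'' x‖ ≤ C)
    (hconv : ∀ x v, ‖v‖ ^ 2 ≤ U'' x v v)
    (hJ : ∀ x v, (f' x v) ^ 2 ≤ U'' x v v * J x) (hJ0 : ∀ x, 0 ≤ J x)
    (hgJ : ∀ x, (1 + δ) * J x + δ ≤ g x)
    (hcen : ∫ y, f y * Real.exp (-U y) = 0) :
    ∫ y, f y ^ 2 * Real.exp (-U y) ≤ ∫ y, g y * Real.exp (-U y) := by
  by_contra hne
  rw [not_le] at hne
  have hfc := hf.continuous
  have hgc := hg.continuous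
  set T : E → ℝ := fun x => |f x| + |g x| with hT
  have hT0 : ∀ x, 0 ≤ T x := fun x => add_nonneg (abs_nonneg _) (abs_nonneg _)
  have hTb : ∀ x, Real.exp (T x) ≤ Real.exp (|f 0| + |g 0|) * Real.exp (2 * C * ‖x‖) := by
    intro x
    rw [← Real.exp_add]
    apply Real.exp_le_exp.2
    have := sk_bl_growth hf.d1 hf1 x
    have := sk_bl_growth hg.d1 hg1 x
    simp only [hT]
    linarith
  have INT : ∀ q : E → ℝ, Continuous q → (∀ x, |q x| ≤ 2 * Real.exp (T x)) →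
      Integrable (fun x => q x * Real.exp (-U x)) := by
    intro q hq hb
    refine sk_bl_int hU hconv hq (A := 2 * Real.exp (|f 0| + |g 0|)) (B := 2 * C) fun x => ?_
    calc |q x| ≤ 2 * Real.exp (T x) := hb x
      _ ≤ 2 * (Real.exp (|f 0| + |g 0|) * Real.exp (2 * C * ‖x‖)) := by gcongr; exact hTb x
      _ = _ := by ring
  have hq3 : ∀ x, 1 + T x + T x ^ 2 / 2 + T x ^ 3 / 6 ≤ Real.exp (T x) := fun x => sk_bl_exp_cubic _
  set P : E → ℝ := fun x => |f x * g x| / 2 + (|f x| + |g x|) ^ 3 / 6 with hP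
  have hfT : ∀ x, |f x| ≤ T x := fun x => by simp only [hT]; linarith [abs_nonneg (g x)]
  have hgT : ∀ x, |g x| ≤ T x := fun x => by simp only [hT]; linarith [abs_nonneg (f x)]
  have i0 : Integrable (fun x => (1 : ℝ) * Real.exp (-U x)) := INT (fun _ => 1) continuous_const
    (fun x => by
      have := hq3 x; have := hT0 x
      have h3 : 0 ≤ T x ^ 3 := by positivity
      rw [abs_one]; nlinarith [sq_nonneg (T x)])
  have i1 : Integrable (fun x => f x * Real.exp (-U x)) := INT f hfc (fun x => by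
      have := hq3 x; have := hT0 x; have := hfT x
      have h3 : 0 ≤ T x ^ 3 := by positivity
      nlinarith [sq_nonneg (T x)])
  have i2 : Integrable (fun x => g x * Real.exp (-U x)) := INT g hgc (fun x => by
      have := hq3 x; have := hT0 x; have := hgT x
      have h3 : 0 ≤ T x ^ 3 := by positivity
      nlinarith [sq_nonneg (T x)])
  have i3 : Integrable (fun x => f x ^ 2 * Real.exp (-U x)) := INT (fun x => f x ^ 2) (hfc.pow 2)
    (fun x => by
      have := hq3 x; have := hT0 x; have h1 := hfT x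
      have h3 : 0 ≤ T x ^ 3 := by positivity
      have h4 : f x ^ 2 ≤ T x ^ 2 := by
        rw [← sq_abs (f x)]; exact pow_le_pow_left₀ (abs_nonneg _) h1 2
      rw [abs_of_nonneg (sq_nonneg _)]
      nlinarith)
  have hP0 : ∀ x, 0 ≤ P x := fun x => by
    simp only [hP]
    have := abs_nonneg (f x); have := abs_nonneg (g x)
    positivity
  have i4 : Integrable (fun x => P x * Real.exp (-U x)) := INT P
    (by simp only [hP]; fun_prop)
    (fun x => by
      have := hq3 x; have h0 := hT0 x; have h1 := hfT x; have h2 := hgT x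
      have h4 : |f x * g x| ≤ T x ^ 2 := by
        rw [abs_mul]
        nlinarith [abs_nonneg (f x), abs_nonneg (g x)]
      rw [abs_of_nonneg (hP0 x)]
      simp only [hP]
      change |f x * g x| / 2 + T x ^ 3 / 6 ≤ 2 * Real.exp (T x)
      nlinarith [Real.exp_pos (T x)])
  have i5 : ∀ τ : ℝ, |τ| ≤ 1 →
      Integrable (fun x => Real.exp (τ * f x - τ ^ 2 * g x / 2) * Real.exp (-U x)) := by
    intro τ hτ
    refine INT (fun x => Real.exp (τ * f x - τ ^ 2 * g x / 2)) (by fun_prop) (fun x => ?_)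
    rw [abs_of_pos (Real.exp_pos _)]
    have : Real.exp (τ * f x - τ ^ 2 * g x / 2) ≤ Real.exp (T x) := by
      apply Real.exp_le_exp.2
      have e1 : τ * f x ≤ |f x| := by
        calc τ * f x ≤ |τ * f x| := le_abs_self _
          _ = |τ| * |f x| := abs_mul _ _
          _ ≤ 1 * |f x| := by gcongr
          _ = |f x| := one_mul _
      have e2 : -(τ ^ 2 * g x / 2) ≤ |g x| := by
        have ht2 : τ ^ 2 ≤ 1 := by
          rw [← sq_abs]; exact pow_le_one₀ (abs_nonneg _) hτ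
        calc -(τ ^ 2 * g x / 2) ≤ |τ ^ 2 * g x / 2| := neg_le_abs _
          _ = τ ^ 2 * |g x| / 2 := by
              rw [abs_div, abs_mul, abs_of_nonneg (sq_nonneg τ), abs_of_pos (by norm_num : (0:ℝ) < 2)]
          _ ≤ 1 * |g x| / 2 := by gcongr
          _ ≤ |g x| := by linarith [abs_nonneg (g x)]
      simp only [hT]
      linarith
    linarith [Real.exp_pos (T x)]
  set Z : ℝ := ∫ x, Real.exp (-U x) with hZ
  have hi0 : Integrable (fun x => Real.exp (-U x)) := by simpa using i0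
  have hZ0 : 0 < Z := integral_exp_pos hi0
  set D : ℝ := (∫ y, f y ^ 2 * Real.exp (-U y)) - ∫ y, g y * Real.exp (-U y) with hD
  have hD0 : 0 < D := by rw [hD]; linarith
  set K : ℝ := ∫ y, P y * Real.exp (-U y) with hK
  -- lower bound of the perturbed partition function
  have low : ∀ τ : ℝ, |τ| ≤ 1 → Z + τ ^ 2 / 2 * D - |τ| ^ 3 * K
      ≤ ∫ x, Real.exp (τ * f x - τ ^ 2 * g x / 2) * Real.exp (-U x) := by
    intro τ hτ
    have k1 : Integrable (fun x => τ * (f x * Real.exp (-U x))) := i1.const_mul τ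
    have k2 : Integrable (fun x => τ ^ 2 / 2 * (g x * Real.exp (-U x))) := i2.const_mul _
    have k3 : Integrable (fun x => τ ^ 2 / 2 * (f x ^ 2 * Real.exp (-U x))) := i3.const_mul _
    have k4 : Integrable (fun x => |τ| ^ 3 * (P x * Real.exp (-U x))) := i4.const_mul _
    have j1 : Integrable (fun x => Real.exp (-U x) + τ * (f x * Real.exp (-U x))) := hi0.add k1
    have j2 : Integrable (fun x => Real.exp (-U x) + τ * (f x * Real.exp (-U x))
        - τ ^ 2 / 2 * (g x * Real.exp (-U x))) := j1.sub k2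
    have j3 : Integrable (fun x => Real.exp (-U x) + τ * (f x * Real.exp (-U x))
        - τ ^ 2 / 2 * (g x * Real.exp (-U x)) + τ ^ 2 / 2 * (f x ^ 2 * Real.exp (-U x))) := j2.add k3
    have j4 : Integrable (fun x => Real.exp (-U x) + τ * (f x * Real.exp (-U x))
        - τ ^ 2 / 2 * (g x * Real.exp (-U x)) + τ ^ 2 / 2 * (f x ^ 2 * Real.exp (-U x))
        - |τ| ^ 3 * (P x * Real.exp (-U x))) := j3.sub k4
    have e : Z + τ ^ 2 / 2 * D - |τ| ^ 3 * K
        = ∫ x, (Real.exp (-U x) + τ * (f x * Real.exp (-U x)) - τ ^ 2 / 2 * (g x * Real.exp (-U x))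
          + τ ^ 2 / 2 * (f x ^ 2 * Real.exp (-U x)) - |τ| ^ 3 * (P x * Real.exp (-U x))) := by
      rw [integral_sub j3 k4, integral_add j2 k3, integral_sub j1 k2, integral_add hi0 k1,
        integral_const_mul, integral_const_mul, integral_const_mul, integral_const_mul, hcen]
      rw [hD, hK, hZ]
      ring
    rw [e]
    refine integral_mono j4 (i5 τ hτ) fun x => ?_
    have := sk_bl_pt (τ := τ) (a := f x) (b := g x) hτ
    have hw := Real.exp_pos (-U x)
    have := mul_le_mul_of_nonneg_right this hw.le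
    simp only [hP]
    calc _ = (1 + τ * f x - τ ^ 2 * g x / 2 + τ ^ 2 * f x ^ 2 / 2
        - |τ| ^ 3 * (|f x * g x| / 2 + (|f x| + |g x|) ^ 3 / 6)) * Real.exp (-U x) := by ring
      _ ≤ _ := this
  -- choice of τ
  have ev1 : ∀ᶠ τ in 𝓝 (0 : ℝ), |τ| * C + 2 * τ ^ 2 * C ^ 2 / δ + τ ^ 2 * C / 2 < δ / (1 + δ) := by
    have hc : Continuous fun τ : ℝ => |τ| * C + 2 * τ ^ 2 * C ^ 2 / δ + τ ^ 2 * C / 2 := by fun_prop
    have h0 := hc.tendsto 0
    simp only [abs_zero, zero_mul, ne_eq, OfNat.ofNat_ne_zero, not_false_eq_true, zero_pow, mul_zero,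
      zero_div, add_zero] at h0
    exact h0.eventually_lt_const (by positivity)
  have ev2 : ∀ᶠ τ in 𝓝 (0 : ℝ), |τ| * K < D / 2 := by
    have hc : Continuous fun τ : ℝ => |τ| * K := by fun_prop
    have h0 := hc.tendsto 0
    simp only [abs_zero, zero_mul] at h0
    exact h0.eventually_lt_const (by positivity)
  have ev3 : ∀ᶠ τ in 𝓝 (0 : ℝ), |τ| < 1 := by
    have hc : Continuous fun τ : ℝ => |τ| := by fun_prop
    have h0 := hc.tendsto 0
    simp only [abs_zero] at h0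
    exact h0.eventually_lt_const (by norm_num)
  have ev : ∀ᶠ τ in 𝓝[>] (0 : ℝ), (|τ| * C + 2 * τ ^ 2 * C ^ 2 / δ + τ ^ 2 * C / 2 < δ / (1 + δ) ∧
      |τ| * K < D / 2 ∧ |τ| < 1) ∧ 0 < τ :=
    ((ev1.and (ev2.and ev3)).filter_mono nhdsWithin_le_nhds).and self_mem_nhdsWithin
  obtain ⟨τ, ⟨h1, h2, h3⟩, hτ0⟩ := ev.exists
  have habs : |τ| = τ := abs_of_pos hτ0
  have l1 := low τ h3.le
  have l2 := low (-τ) (by rw [abs_neg]; exact h3.le)
  rw [abs_neg] at l2
  have gain : Z < Z + τ ^ 2 / 2 * D - |τ| ^ 3 * K := by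
    rw [habs] at h2 ⊢
    have : 0 < τ ^ 2 * (D / 2 - τ * K) := by
      apply mul_pos (by positivity); linarith
    nlinarith
  have gain2 : Z < Z + (-τ) ^ 2 / 2 * D - |τ| ^ 3 * K := by
    have : (-τ) ^ 2 = τ ^ 2 := by ring
    rw [this]; exact gain
  have c1 : ∀ r : ℝ, (fun y => Real.exp (-(U y - r * f y + r ^ 2 * g y / 2)))
      = fun x => Real.exp (r * f x - r ^ 2 * g x / 2) * Real.exp (-U x) := by
    intro r; funext x
    rw [← Real.exp_add]; congr 1; ring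
  have c2 : (fun y => Real.exp (-(U y + τ * f y + τ ^ 2 * g y / 2)))
      = fun x => Real.exp ((-τ) * f x - (-τ) ^ 2 * g x / 2) * Real.exp (-U x) := by
    funext x
    rw [← Real.exp_add]; congr 1; ring
  have pl := sk_bl_pl hU hf hg hδ hC hf2 hg1 hg2 hconv hJ hJ0 hgJ h1.le hi0
    (by rw [c2]; exact i5 (-τ) (by rw [abs_neg]; exact h3.le)) (by rw [c1]; exact i5 τ h3.le)
  rw [c2, c1] at pl
  have b1 := lt_of_lt_of_le gain l1
  have b2 := lt_of_lt_of_le gain2 l2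
  have : Z ^ 2 < (∫ x, Real.exp ((-τ) * f x - (-τ) ^ 2 * g x / 2) * Real.exp (-U x))
      * ∫ x, Real.exp (τ * f x - τ ^ 2 * g x / 2) * Real.exp (-U x) := by
    rw [sq]
    exact mul_lt_mul'' b2 b1 hZ0.le hZ0.le
  linarith

end sk_bl_part2

section sk_bl_part3

variable {E : Type*} [NormedAddCommGroup E] [InnerProductSpace ℝ E]

theorem SkC2.sub_const {F : E → ℝ} {F' : E → E →L[ℝ] ℝ} {F'' : E → E →L[ℝ] E →L[ℝ] ℝ}
    (h : SkC2 F F' F'') (c : ℝ) : SkC2 (fun x => F x - c) F' F'' :=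
  ⟨fun x => (h.d1 x).sub_const c, h.d2⟩

theorem SkC2.affine {F : E → ℝ} {F' : E → E →L[ℝ] ℝ} {F'' : E → E →L[ℝ] E →L[ℝ] ℝ}
    (h : SkC2 F F' F'') (a b : ℝ) :
    SkC2 (fun x => a * F x + b) (fun x => a • F' x) (fun x => a • F'' x) :=
  ⟨fun x => ((h.d1 x).const_mul a).add_const b, fun x => (h.d2 x).const_smul a⟩

variable [FiniteDimensional ℝ E] [MeasurableSpace E] [BorelSpace E]

theorem sk_bl_int0 {U : E → ℝ} {U' : E → E →L[ℝ] ℝ} {U'' : E → E →L[ℝ] E →L[ℝ] ℝ}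
    (hU : SkC2 U U' U'') (hconv : ∀ x v, ‖v‖ ^ 2 ≤ U'' x v v) :
    Integrable (fun x => Real.exp (-U x)) := by
  have := sk_bl_int hU hconv (q := fun _ => (1 : ℝ)) continuous_const (A := 1) (B := 0)
    (fun x => by simp)
  simpa using this

theorem sk_bl_int1 {U : E → ℝ} {U' : E → E →L[ℝ] ℝ} {U'' : E → E →L[ℝ] E →L[ℝ] ℝ}
    (hU : SkC2 U U' U'') (hconv : ∀ x v, ‖v‖ ^ 2 ≤ U'' x v v)
    {F : E → ℝ} {F' : E → E →L[ℝ] ℝ} {C : ℝ} (h1 : ∀ x, HasFDerivAt F (F' x) x)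
    (hb : ∀ x, ‖F' x‖ ≤ C) : Integrable (fun x => F x * Real.exp (-U x)) := by
  have hc : Continuous F := continuous_iff_continuousAt.2 fun x => (h1 x).continuousAt
  refine sk_bl_int hU hconv hc (A := Real.exp |F 0|) (B := C) fun x => ?_
  rw [← Real.exp_add]
  have := sk_bl_growth h1 hb x
  have := Real.add_one_le_exp (|F 0| + C * ‖x‖)
  linarith

theorem sk_bl_int2 {U : E → ℝ} {U' : E → E →L[ℝ] ℝ} {U'' : E → E →L[ℝ] E →L[ℝ] ℝ}
    (hU : SkC2 U U' U'') (hconv : ∀ x v, ‖v‖ ^ 2 ≤ U'' x v v)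
    {F : E → ℝ} {F' : E → E →L[ℝ] ℝ} {C : ℝ} (h1 : ∀ x, HasFDerivAt F (F' x) x)
    (hb : ∀ x, ‖F' x‖ ≤ C) : Integrable (fun x => F x ^ 2 * Real.exp (-U x)) := by
  have hc : Continuous F := continuous_iff_continuousAt.2 fun x => (h1 x).continuousAt
  refine sk_bl_int hU hconv (hc.pow 2) (A := 2 * Real.exp |F 0|) (B := C) fun x => ?_
  rw [mul_assoc, ← Real.exp_add, abs_of_nonneg (sq_nonneg _)]
  have h2 := sk_bl_growth h1 hb x
  have h0 : 0 ≤ |F 0| + C * ‖x‖ := le_trans (abs_nonneg _) h2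
  have h3 := Real.quadratic_le_exp_of_nonneg h0
  have h4 : F x ^ 2 ≤ (|F 0| + C * ‖x‖) ^ 2 := by
    rw [← sq_abs (F x)]; exact pow_le_pow_left₀ (abs_nonneg _) h2 2
  nlinarith

/-- **Brascamp–Lieb variance inequality**, unnormalised form. -/
theorem sk_bl_var {U f J : E → ℝ} {U' f' J' : E → E →L[ℝ] ℝ}
    {U'' f'' J'' : E → E →L[ℝ] E →L[ℝ] ℝ}
    (hU : SkC2 U U' U'') (hf : SkC2 f f' f'') (hJs : SkC2 J J' J'') {C : ℝ}
    (hf1 : ∀ x, ‖f' x‖ ≤ C) (hf2 : ∀ x, ‖f'' x‖ ≤ C)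
    (hJ1 : ∀ x, ‖J' x‖ ≤ C) (hJ2 : ∀ x, ‖J'' x‖ ≤ C)
    (hconv : ∀ x v, ‖v‖ ^ 2 ≤ U'' x v v)
    (hJ : ∀ x v, (f' x v) ^ 2 ≤ U'' x v v * J x) (hJ0 : ∀ x, 0 ≤ J x) :
    (∫ y, f y ^ 2 * Real.exp (-U y)) * (∫ y, Real.exp (-U y)) - (∫ y, f y * Real.exp (-U y)) ^ 2
      ≤ (∫ y, J y * Real.exp (-U y)) * ∫ y, Real.exp (-U y) := by
  have hC : 0 ≤ C := le_trans (norm_nonneg _) (hf1 0)
  have i0 := sk_bl_int0 hU hconv
  have i1 := sk_bl_int1 hU hconv hf.d1 hf1
  have i2 := sk_bl_int2 hU hconv hf.d1 hf1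
  have iJ := sk_bl_int1 hU hconv hJs.d1 hJ1
  set Z : ℝ := ∫ y, Real.exp (-U y) with hZ
  have hZ0 : 0 < Z := integral_exp_pos i0
  set M1 : ℝ := ∫ y, f y * Real.exp (-U y) with hM1
  set M2 : ℝ := ∫ y, f y ^ 2 * Real.exp (-U y) with hM2
  set G : ℝ := ∫ y, J y * Real.exp (-U y) with hG
  set c : ℝ := M1 / Z with hc
  have k1 : Integrable (fun y => c * Real.exp (-U y)) := i0.const_mul c
  have hcen : ∫ y, (f y - c) * Real.exp (-U y) = 0 := by
    have e : (fun y => (f y - c) * Real.exp (-U y))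
        = fun y => f y * Real.exp (-U y) - c * Real.exp (-U y) := by
      funext y; ring
    rw [e, integral_sub i1 k1, integral_const_mul, ← hZ, ← hM1, hc]
    field_simp
    ring
  have hsq : ∫ y, (f y - c) ^ 2 * Real.exp (-U y) = M2 - M1 ^ 2 / Z := by
    have k2 : Integrable (fun y => (2 * c) * (f y * Real.exp (-U y))) := i1.const_mul _
    have k3 : Integrable (fun y => c ^ 2 * Real.exp (-U y)) := i0.const_mul _
    have j1 : Integrable (fun y => f y ^ 2 * Real.exp (-U y) - (2 * c) * (f y * Real.exp (-U y))) :=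
      i2.sub k2
    have e : (fun y => (f y - c) ^ 2 * Real.exp (-U y))
        = fun y => f y ^ 2 * Real.exp (-U y) - (2 * c) * (f y * Real.exp (-U y))
          + c ^ 2 * Real.exp (-U y) := by
      funext y; ring
    rw [e, integral_add j1 k3, integral_sub i2 k2, integral_const_mul, integral_const_mul,
      ← hZ, ← hM1, ← hM2, hc]
    field_simp
    ring
  have main : ∀ δ : ℝ, 0 < δ → M2 - M1 ^ 2 / Z ≤ G + δ * (G + Z) := by
    intro δ hδ
    have hg := hJs.affine (1 + δ) δ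
    have h1δ : (0 : ℝ) ≤ 1 + δ := by linarith
    have hCC : C ≤ (1 + δ) * C := by nlinarith
    have core := sk_bl_core (J := J) (C := (1 + δ) * C) (δ := δ) hU (hf.sub_const c) hg hδ
      (by positivity) (fun x => (hf1 x).trans hCC) (fun x => (hf2 x).trans hCC)
      (fun x => by
        refine (ContinuousLinearMap.opNorm_smul_le _ _).trans ?_
        rw [Real.norm_of_nonneg h1δ]
        exact mul_le_mul_of_nonneg_left (hJ1 x) h1δ)
      (fun x => by
        refine (ContinuousLinearMap.opNorm_smul_le _ _).trans ?_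
        rw [Real.norm_of_nonneg h1δ]
        exact mul_le_mul_of_nonneg_left (hJ2 x) h1δ)
      hconv hJ hJ0 (fun x => le_rfl) hcen
    rw [hsq] at core
    have k4 : Integrable (fun y => (1 + δ) * (J y * Real.exp (-U y))) := iJ.const_mul _
    have k5 : Integrable (fun y => δ * Real.exp (-U y)) := i0.const_mul _
    have e : (fun y => ((1 + δ) * J y + δ) * Real.exp (-U y))
        = fun y => (1 + δ) * (J y * Real.exp (-U y)) + δ * Real.exp (-U y) := by
      funext y; ring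
    rw [e, integral_add k4 k5, integral_const_mul, integral_const_mul, ← hZ, ← hG] at core
    linarith
  have hG0 : 0 ≤ G := integral_nonneg fun y => mul_nonneg (hJ0 y) (Real.exp_pos _).le
  have fin : M2 - M1 ^ 2 / Z ≤ G := by
    apply le_of_forall_pos_le_add
    intro ε hε
    have hGZ : 0 < G + Z := by linarith
    have := main (ε / (G + Z)) (by positivity)
    have e : ε / (G + Z) * (G + Z) = ε := by field_simp
    linarith
  have := mul_le_mul_of_nonneg_right fin hZ0.le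
  have e : (M2 - M1 ^ 2 / Z) * Z = M2 * Z - M1 ^ 2 := by field_simp
  linarith

end sk_bl_part3

end Claimed.Agent.R286
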