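import Mathlib

/-!
# Row 286, folder Box, file MartCore : MARTINGALE INEQUALITIES, CORES IN `ℝ≥0∞`      (helper22; prefix `sk_mt_`, defs `skMt*`)      Mathlib only, NO SORRY

Box MART of LL Lemma "Residual blocks and integrated increments" (06-global.tex, (global-grid), (global-dual-doob)).      Discrete time, a filtration `ℱ : Filtration ℕ m0`, functions with values in `ℝ≥0∞`.
CONDITIONAL EXPECTATIONS ENTER ONLY THROUGH SET INTEGRALS over the sets of `ℱ k` (so explicit kernels and `μ[·|ℱ k]` both fit).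
* `sk_mt_test`      domination of set integrals passes to `ℱ k`-measurable nonnegative multipliers.
* `sk_mt_weak`      Doob, weak form:   `t μ{∃ k ≤ n, t ≤ f k} ≤ ∫_{...} f n`.
* `sk_mt_doob`      **Doob `L^p`**:   `∫ (max_{k ≤ n} f k)^p ≤ (p/(p-1))^p ∫ (f n)^p`,   `p > 1`, finite measure, no integrability hypothesis.
* `sk_mt_gn_pre`, `sk_mt_gn`      **Garsia-Neveu**:   `a k ≥ 0` adapted, `∫_s ∑_{j=k}^n a j ≤ ∫_s g` for `s ∈ ℱ k`   ⟹   `∫ A^q ≤ q ∫ g A^(q-1)`,   `∫ A^q ≤ q^q ∫ g^q`   (`A = ∑_{k ≤ n} a k`, `q ≥ 1`).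
* `sk_mt_dual`      **dual Doob**:   `a k` adapted with `∫_s a k ≤ ∫_s V k` for `s ∈ ℱ k` (`V k ≥ 0` NOT adapted)   ⟹   `∫ (∑ a k)^q ≤ q^q ∫ (∑ V k)^q`.
-/

set_option autoImplicit false

namespace Claimed.Agent.R286

open MeasureTheory
open scoped ENNReal NNReal

section core

variable {Ω : Type*} {m0 : MeasurableSpace Ω} {μ : Measure Ω}

/-- **test functions**: a domination of set integrals over a sub-sigma-field passes to nonnegative multipliers measurable for that field -/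
theorem sk_mt_test {m : MeasurableSpace Ω} (hm : m ≤ m0) {u v Y : Ω → ℝ≥0∞} (hu : Measurable[m0] u) (hv : Measurable[m0] v) (hY : Measurable[m] Y)
    (h : ∀ s, MeasurableSet[m] s → ∫⁻ ω in s, u ω ∂μ ≤ ∫⁻ ω in s, v ω ∂μ) :
    ∫⁻ ω, u ω * Y ω ∂μ ≤ ∫⁻ ω, v ω * Y ω ∂μ := by
  have hle : (μ.withDensity u).trim hm ≤ (μ.withDensity v).trim hm := by
    refine Measure.le_iff.2 fun s hs => ?_
    rw [trim_measurableSet_eq hm hs, trim_measurableSet_eq hm hs, withDensity_apply _ (hm s hs), withDensity_apply _ (hm s hs)]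
    exact h s hs
  have h1 := lintegral_mono' hle (le_refl Y)
  rw [lintegral_trim hm hY, lintegral_trim hm hY, lintegral_withDensity_eq_lintegral_mul μ hu (hY.mono hm le_rfl),
    lintegral_withDensity_eq_lintegral_mul μ hv (hY.mono hm le_rfl)] at h1
  exact h1

/-- the algebra of the absorption step -/
theorem sk_mt_absorb {X A c : ℝ≥0∞} {p : ℝ} (hp : 1 < p) (hX : X ≠ ⊤) (h : X ≤ c * (A ^ (1 / p) * X ^ (1 - 1 / p))) : X ≤ c ^ p * A := by
  have hp0 : 0 < p := by linarith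
  rcases eq_or_ne X 0 with h0 | h0
  · rw [h0]; exact zero_le
  have h1 : 0 < 1 - 1 / p := by
    rw [sub_pos, div_lt_one hp0]; exact hp
  have hXp0 : X ^ (1 - 1 / p) ≠ 0 := by
    simp [ENNReal.rpow_eq_zero_iff, h0, hX]
  have hXpt : X ^ (1 - 1 / p) ≠ ⊤ := ENNReal.rpow_ne_top_of_nonneg h1.le hX
  have h2 : X ^ (1 / p) * X ^ (1 - 1 / p) = X := by
    rw [← ENNReal.rpow_add _ _ h0 hX]
    simp
  have h3 : X ^ (1 / p) ≤ c * A ^ (1 / p) := by
    have : X ^ (1 / p) * X ^ (1 - 1 / p) ≤ (c * A ^ (1 / p)) * X ^ (1 - 1 / p) := by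
      rw [h2, mul_assoc]; exact h
    exact (ENNReal.mul_le_mul_iff_left hXp0 hXpt).1 this
  calc X = (X ^ (1 / p)) ^ p := by
        rw [← ENNReal.rpow_mul]; simp [hp0.ne']
    _ ≤ (c * A ^ (1 / p)) ^ p := ENNReal.rpow_le_rpow h3 hp0.le
    _ = c ^ p * A := by
        rw [ENNReal.mul_rpow_of_nonneg _ _ hp0.le, ← ENNReal.rpow_mul]; simp [hp0.ne']

/-- one piece of the first-passage decomposition -/
theorem sk_mt_piece (ℱ : Filtration ℕ m0) {f : ℕ → Ω → ℝ≥0∞} {n k : ℕ} (hk : k ≤ n)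
    (hs : ∀ k ≤ n, ∀ s, MeasurableSet[ℱ k] s → ∫⁻ ω in s, f k ω ∂μ ≤ ∫⁻ ω in s, f n ω ∂μ) (t : ℝ≥0∞) {s : Set Ω} (hsm : MeasurableSet[ℱ k] s)
    (hst : ∀ ω ∈ s, t ≤ f k ω) : t * μ s ≤ ∫⁻ ω in s, f n ω ∂μ := by
  calc t * μ s = ∫⁻ _ in s, t ∂μ := by rw [setLIntegral_const]
    _ ≤ ∫⁻ ω in s, f k ω ∂μ := setLIntegral_mono' (ℱ.le k s hsm) hst
    _ ≤ ∫⁻ ω in s, f n ω ∂μ := hs k hk s hsm

/-- **Doob's maximal inequality, weak form**, for an abstract nonnegative submartingale (`ℝ≥0∞`-valued; the submartingale property is asked through set integrals only) -/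
theorem sk_mt_weak (ℱ : Filtration ℕ m0) {f : ℕ → Ω → ℝ≥0∞} {n : ℕ} (hm : ∀ k, Measurable[ℱ k] (f k))
    (hs : ∀ k ≤ n, ∀ s, MeasurableSet[ℱ k] s → ∫⁻ ω in s, f k ω ∂μ ≤ ∫⁻ ω in s, f n ω ∂μ) (t : ℝ≥0∞) :
    t * μ {ω | ∃ k ≤ n, t ≤ f k ω} ≤ ∫⁻ ω in {ω | ∃ k ≤ n, t ≤ f k ω}, f n ω ∂μ := by
  have key : ∀ j ≤ n, MeasurableSet[ℱ j] {ω | ∃ k ≤ j, t ≤ f k ω} ∧
      t * μ {ω | ∃ k ≤ j, t ≤ f k ω} ≤ ∫⁻ ω in {ω | ∃ k ≤ j, t ≤ f k ω}, f n ω ∂μ := by
    intro j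
    induction j with
    | zero =>
      intro _
      have e : {ω | ∃ k ≤ 0, t ≤ f k ω} = {ω | t ≤ f 0 ω} := by
        ext ω; simp
      rw [e]
      have hmeas : MeasurableSet[ℱ 0] {ω | t ≤ f 0 ω} := hm 0 measurableSet_Ici
      exact ⟨hmeas, sk_mt_piece ℱ (Nat.zero_le n) hs t hmeas fun ω hω => hω⟩
    | succ j ih =>
      intro hj
      obtain ⟨ih1, ih2⟩ := ih (by omega)
      have ih1' : MeasurableSet[ℱ (j + 1)] {ω | ∃ k ≤ j, t ≤ f k ω} := ℱ.mono (Nat.le_succ j) _ ih1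
      have hB : MeasurableSet[ℱ (j + 1)] {ω | t ≤ f (j + 1) ω} := hm (j + 1) measurableSet_Ici
      have hD : MeasurableSet[ℱ (j + 1)] ({ω | t ≤ f (j + 1) ω} \ {ω | ∃ k ≤ j, t ≤ f k ω}) := hB.diff ih1'
      have e : {ω | ∃ k ≤ j + 1, t ≤ f k ω} = {ω | ∃ k ≤ j, t ≤ f k ω} ∪ ({ω | t ≤ f (j + 1) ω} \ {ω | ∃ k ≤ j, t ≤ f k ω}) := by
        rw [Set.union_sdiff_self]
        ext ω
        simp only [Set.mem_ofPred_eq, Set.mem_union]
        constructor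
        · rintro ⟨k, hk, h⟩
          rcases Nat.lt_or_ge k (j + 1) with h' | h'
          · exact Or.inl ⟨k, by omega, h⟩
          · have : k = j + 1 := by omega
            subst this
            exact Or.inr h
        · rintro (⟨k, hk, h⟩ | h)
          · exact ⟨k, by omega, h⟩
          · exact ⟨j + 1, le_rfl, h⟩
      have hdisj : Disjoint {ω | ∃ k ≤ j, t ≤ f k ω} ({ω | t ≤ f (j + 1) ω} \ {ω | ∃ k ≤ j, t ≤ f k ω}) := Set.disjoint_sdiff_right
      rw [e]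
      refine ⟨ih1'.union hD, ?_⟩
      rw [measure_union hdisj (ℱ.le _ _ hD), lintegral_union (ℱ.le _ _ hD) hdisj, mul_add]
      exact add_le_add ih2 (sk_mt_piece ℱ hj hs t hD fun ω hω => hω.1)
  exact (key n le_rfl).2

/-- the maximal function -/
noncomputable def skMtMax (f : ℕ → Ω → ℝ≥0∞) (n : ℕ) (ω : Ω) : ℝ≥0∞ := (Finset.range (n + 1)).sup fun k => f k ω

theorem sk_mt_max_meas {f : ℕ → Ω → ℝ≥0∞} (hf : ∀ k, Measurable (f k)) (n : ℕ) : Measurable (skMtMax f n) := by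
  have h := Finset.measurable_range_sup'' (f := f) (n := n) fun k _ => hf k
  have e : (fun x => (Finset.range (n + 1)).sup' Finset.nonempty_range_add_one fun k => f k x) = skMtMax f n := by
    ext x
    rw [Finset.sup'_eq_sup]
    rfl
  rwa [e] at h

theorem sk_mt_le_max {f : ℕ → Ω → ℝ≥0∞} {n k : ℕ} (hk : k ≤ n) (ω : Ω) : f k ω ≤ skMtMax f n ω :=
  Finset.le_sup (f := fun k => f k ω) (Finset.mem_range.2 (by omega))

theorem sk_mt_le_max_iff {f : ℕ → Ω → ℝ≥0∞} {n : ℕ} {t : ℝ≥0∞} (ht : 0 < t) (ω : Ω) : t ≤ skMtMax f n ω ↔ ∃ k ≤ n, t ≤ f k ω := by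
  unfold skMtMax
  rw [Finset.le_sup_iff (by simpa using ht)]
  constructor
  · rintro ⟨k, hk, h⟩
    exact ⟨k, by have := Finset.mem_range.1 hk; omega, h⟩
  · rintro ⟨k, hk, h⟩
    exact ⟨k, Finset.mem_range.2 (by omega), h⟩

/-- the truncated form of the strong inequality, before absorption -/
theorem sk_mt_doob_pre (ℱ : Filtration ℕ m0) {f : ℕ → Ω → ℝ≥0∞} {n : ℕ} (hm : ∀ k, Measurable[ℱ k] (f k))
    (hs : ∀ k ≤ n, ∀ s, MeasurableSet[ℱ k] s → ∫⁻ ω in s, f k ω ∂μ ≤ ∫⁻ ω in s, f n ω ∂μ) {p : ℝ} (hp : 1 < p) (K : ℝ≥0) :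
    ∫⁻ ω, (min (skMtMax f n ω) K) ^ p ∂μ ≤ ENNReal.ofReal (p / (p - 1)) * ∫⁻ ω, f n ω * (min (skMtMax f n ω) K) ^ (p - 1) ∂μ := by
  have hp0 : 0 < p := by linarith
  have hp1 : 0 < p - 1 := by linarith
  have hf : ∀ k, Measurable (f k) := fun k => (hm k).mono (ℱ.le k) le_rfl
  have hM : Measurable (skMtMax f n) := sk_mt_max_meas hf n
  have hG : Measurable fun ω => min (skMtMax f n ω) (K : ℝ≥0∞) := hM.min measurable_const
  have hGt : ∀ ω, min (skMtMax f n ω) (K : ℝ≥0∞) ≠ ⊤ := fun ω => ne_top_of_le_ne_top ENNReal.coe_ne_top (min_le_right _ _)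
  obtain ⟨g, hg⟩ : ∃ g : Ω → ℝ, g = fun ω => (min (skMtMax f n ω) (K : ℝ≥0∞)).toReal := ⟨_, rfl⟩
  have hgm : Measurable g := by rw [hg]; exact hG.ennreal_toReal
  have hg0 : ∀ ω, 0 ≤ g ω := fun ω => by rw [hg]; exact ENNReal.toReal_nonneg
  have hgr : ∀ (r : ℝ), 0 < r → ∀ ω, ENNReal.ofReal (g ω ^ r) = (min (skMtMax f n ω) (K : ℝ≥0∞)) ^ r := by
    intro r hr ω
    rw [← ENNReal.ofReal_rpow_of_nonneg (hg0 ω) hr.le, hg, ENNReal.ofReal_toReal (hGt ω)]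
  have e1 := lintegral_rpow_eq_lintegral_meas_le_mul μ (Filter.Eventually.of_forall hg0) hgm.aemeasurable hp0
  have e2 := lintegral_rpow_eq_lintegral_meas_le_mul (μ.withDensity (f n)) (Filter.Eventually.of_forall hg0) hgm.aemeasurable hp1
  simp only [hgr p hp0] at e1
  simp only [hgr (p - 1) hp1] at e2
  rw [lintegral_withDensity_eq_lintegral_mul μ (hf n) (hG.pow_const _)] at e2
  have e3 : ∫⁻ t in Set.Ioi (0 : ℝ), μ {a | t ≤ g a} * ENNReal.ofReal (t ^ (p - 1)) ≤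
      ∫⁻ t in Set.Ioi (0 : ℝ), (μ.withDensity (f n)) {a | t ≤ g a} * ENNReal.ofReal (t ^ (p - 1 - 1)) := by
    refine setLIntegral_mono' measurableSet_Ioi fun t ht => ?_
    have ht0 : (0 : ℝ) < t := ht
    have et : ENNReal.ofReal (t ^ (p - 1)) = ENNReal.ofReal t * ENNReal.ofReal (t ^ (p - 1 - 1)) := by
      rw [← ENNReal.ofReal_mul ht0.le]
      congr 1
      rw [Real.rpow_sub_one ht0.ne' (p - 1)]
      field_simp
    have hset : ∀ a, t ≤ g a ↔ (ENNReal.ofReal t ≤ skMtMax f n a ∧ ENNReal.ofReal t ≤ (K : ℝ≥0∞)) := by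
      intro a
      rw [hg, ← ENNReal.ofReal_le_iff_le_toReal (hGt a), le_min_iff]
    rw [et, ← mul_assoc]
    refine mul_le_mul_left ?_ _
    by_cases hK : ENNReal.ofReal t ≤ (K : ℝ≥0∞)
    · have es : {a | t ≤ g a} = {ω | ∃ k ≤ n, ENNReal.ofReal t ≤ f k ω} := by
        ext a
        simp only [Set.mem_ofPred_eq, hset a, hK, and_true]
        exact sk_mt_le_max_iff (ENNReal.ofReal_pos.2 ht0) a
      have hmeas : MeasurableSet {a | t ≤ g a} := hgm measurableSet_Ici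
      rw [withDensity_apply _ hmeas, es, mul_comm]
      exact sk_mt_weak ℱ hm hs _
    · have es : {a | t ≤ g a} = ∅ := by
        ext a
        simp only [Set.mem_ofPred_eq, hset a, hK, and_false, Set.mem_empty_iff_false]
      rw [es]
      simp
  have e4 : ENNReal.ofReal p = ENNReal.ofReal (p / (p - 1)) * ENNReal.ofReal (p - 1) := by
    rw [← ENNReal.ofReal_mul (by positivity)]
    congr 1
    field_simp
  calc ∫⁻ ω, (min (skMtMax f n ω) K) ^ p ∂μ = ENNReal.ofReal p * ∫⁻ t in Set.Ioi (0 : ℝ), μ {a | t ≤ g a} * ENNReal.ofReal (t ^ (p - 1)) := e1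
    _ ≤ ENNReal.ofReal p * ∫⁻ t in Set.Ioi (0 : ℝ), (μ.withDensity (f n)) {a | t ≤ g a} * ENNReal.ofReal (t ^ (p - 1 - 1)) := mul_le_mul_right e3 _
    _ = ENNReal.ofReal (p / (p - 1)) * ∫⁻ ω, f n ω * (min (skMtMax f n ω) K) ^ (p - 1) ∂μ := by
        rw [e4, mul_assoc, ← e2]
        rfl

/-- Hölder in the form of the absorption step -/
theorem sk_mt_holder {u G : Ω → ℝ≥0∞} (hu : AEMeasurable u μ) (hG : AEMeasurable G μ) {p : ℝ} (hp : 1 < p) :
    ∫⁻ ω, u ω * G ω ^ (p - 1) ∂μ ≤ (∫⁻ ω, u ω ^ p ∂μ) ^ (1 / p) * (∫⁻ ω, G ω ^ p ∂μ) ^ (1 - 1 / p) := by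
  have hp0 : 0 < p := by linarith
  have hp1 : 0 < p - 1 := by linarith
  have hc := Real.HolderConjugate.conjExponent hp
  have h := ENNReal.lintegral_mul_le_Lp_mul_Lq μ hc hu (hG.pow_const (p - 1))
  have e1 : ∀ ω, (G ω ^ (p - 1)) ^ (Real.conjExponent p) = G ω ^ p := by
    intro ω
    rw [← ENNReal.rpow_mul]
    congr 1
    unfold Real.conjExponent
    field_simp
  have e2 : 1 / Real.conjExponent p = 1 - 1 / p := by
    unfold Real.conjExponent
    field_simp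
  simp only [e1, e2] at h
  exact h

/-- **Doob's `L^p` maximal inequality** for an abstract nonnegative submartingale -/
theorem sk_mt_doob [IsFiniteMeasure μ] (ℱ : Filtration ℕ m0) {f : ℕ → Ω → ℝ≥0∞} {n : ℕ} (hm : ∀ k, Measurable[ℱ k] (f k))
    (hs : ∀ k ≤ n, ∀ s, MeasurableSet[ℱ k] s → ∫⁻ ω in s, f k ω ∂μ ≤ ∫⁻ ω in s, f n ω ∂μ) {p : ℝ} (hp : 1 < p) :
    ∫⁻ ω, skMtMax f n ω ^ p ∂μ ≤ ENNReal.ofReal (p / (p - 1)) ^ p * ∫⁻ ω, f n ω ^ p ∂μ := by
  have hp0 : 0 < p := by linarith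
  have hf : ∀ k, Measurable (f k) := fun k => (hm k).mono (ℱ.le k) le_rfl
  have hM : Measurable (skMtMax f n) := sk_mt_max_meas hf n
  have hK : ∀ K : ℕ, ∫⁻ ω, (min (skMtMax f n ω) (K : ℝ≥0∞)) ^ p ∂μ ≤ ENNReal.ofReal (p / (p - 1)) ^ p * ∫⁻ ω, f n ω ^ p ∂μ := by
    intro K
    have hG : Measurable fun ω => min (skMtMax f n ω) (K : ℝ≥0∞) := hM.min measurable_const
    have hfin : ∫⁻ ω, (min (skMtMax f n ω) (K : ℝ≥0∞)) ^ p ∂μ ≠ ⊤ := by
      refine ne_top_of_le_ne_top ?_ (lintegral_mono fun ω => ENNReal.rpow_le_rpow (min_le_right _ _) hp0.le)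
      rw [lintegral_const]
      exact ENNReal.mul_ne_top (ENNReal.rpow_ne_top_of_nonneg hp0.le (ENNReal.natCast_ne_top K)) (measure_ne_top μ _)
    refine sk_mt_absorb hp hfin ?_
    have h1 := sk_mt_doob_pre (μ := μ) ℱ hm hs hp (K : ℝ≥0)
    simp only [ENNReal.coe_natCast] at h1
    exact h1.trans (mul_le_mul_right (sk_mt_holder (hf n).aemeasurable hG.aemeasurable hp) _)
  have hlim : Filter.Tendsto (fun K : ℕ => ∫⁻ ω, (min (skMtMax f n ω) (K : ℝ≥0∞)) ^ p ∂μ) Filter.atTop (nhds (∫⁻ ω, skMtMax f n ω ^ p ∂μ)) := by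
    refine lintegral_tendsto_of_tendsto_of_monotone (fun K => ((hM.min measurable_const).pow_const p).aemeasurable) ?_ ?_
    · refine Filter.Eventually.of_forall fun ω K K' hKK => ?_
      exact ENNReal.rpow_le_rpow (min_le_min le_rfl (by exact_mod_cast hKK)) hp0.le
    · refine Filter.Eventually.of_forall fun ω => ?_
      have h1 : Filter.Tendsto (fun K : ℕ => min (skMtMax f n ω) (K : ℝ≥0∞)) Filter.atTop (nhds (min (skMtMax f n ω) ⊤)) :=
        tendsto_const_nhds.min ENNReal.tendsto_nat_nhds_top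
      rw [min_eq_left le_top] at h1
      exact (ENNReal.continuous_rpow_const.tendsto _).comp h1
  exact le_of_tendsto' hlim hK

end core

/-- the real convexity inequality -/
theorem sk_mt_cvx_real {a b q : ℝ} (ha : 0 ≤ a) (hb : 0 ≤ b) (hq : 1 ≤ q) : (a + b) ^ q ≤ a ^ q + q * (b * (a + b) ^ (q - 1)) := by
  have hq0 : 0 < q := by linarith
  rcases eq_or_lt_of_le (add_nonneg ha hb) with h0 | h0
  · have ha0 : a = 0 := by linarith
    have hb0 : b = 0 := by linarith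
    subst ha0 hb0
    simp [Real.zero_rpow hq0.ne']
  · have h1 : -1 ≤ -b / (a + b) := by
      rw [le_div_iff₀ h0]; linarith
    have h2 := one_add_mul_self_le_rpow_one_add h1 hq
    have e1 : 1 + -b / (a + b) = a / (a + b) := by field_simp; ring
    rw [e1, Real.div_rpow ha h0.le, le_div_iff₀ (Real.rpow_pos_of_pos h0 q)] at h2
    have e2 : (a + b) ^ q = (a + b) ^ (q - 1) * (a + b) := by
      rw [← Real.rpow_add_one h0.ne']; congr 1; ring
    have e3 : (1 + q * (-b / (a + b))) * (a + b) ^ q = (a + b) ^ q - q * (b * (a + b) ^ (q - 1)) := by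
      rw [add_mul, one_mul]
      nth_rewrite 2 [e2]
      field_simp
      ring
    rw [e3] at h2
    linarith

/-- the convexity inequality in `ℝ≥0∞` -/
theorem sk_mt_cvx (x y : ℝ≥0∞) {q : ℝ} (hq : 1 ≤ q) : (x + y) ^ q ≤ x ^ q + ENNReal.ofReal q * (y * (x + y) ^ (q - 1)) := by
  have hq0 : 0 < q := by linarith
  rcases eq_or_ne x ⊤ with hx | hx
  · subst hx
    simp [ENNReal.top_rpow_of_pos hq0]
  rcases eq_or_ne y ⊤ with hy | hy
  · subst hy
    have h1 : (x + ⊤ : ℝ≥0∞) ^ (q - 1) ≠ 0 := by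
      simp only [add_top]
      rcases eq_or_lt_of_le hq with h | h
      · rw [← h]; simp
      · rw [ENNReal.top_rpow_of_pos (by linarith)]; simp
    have h2 : ENNReal.ofReal q * (⊤ * (x + ⊤ : ℝ≥0∞) ^ (q - 1)) = ⊤ := by
      rw [ENNReal.top_mul h1, ENNReal.mul_top (by simpa using hq0)]
    rw [h2]
    simp
  lift x to ℝ≥0 using hx
  lift y to ℝ≥0 using hy
  have h := sk_mt_cvx_real (NNReal.coe_nonneg x) (NNReal.coe_nonneg y) hq
  have hx0 : (0 : ℝ) ≤ x := NNReal.coe_nonneg x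
  have hy0 : (0 : ℝ) ≤ y := NNReal.coe_nonneg y
  have e : ∀ (z : ℝ≥0) (r : ℝ), 0 ≤ r → ((z : ℝ≥0∞)) ^ r = ENNReal.ofReal ((z : ℝ) ^ r) := by
    intro z r hr
    rw [← ENNReal.ofReal_rpow_of_nonneg (NNReal.coe_nonneg z) hr, ENNReal.ofReal_coe_nnreal]
  rw [← ENNReal.coe_add, e _ q hq0.le, e _ q hq0.le, e _ (q - 1) (by linarith), ← ENNReal.ofReal_coe_nnreal (p := y),
    ← ENNReal.ofReal_mul hy0, ← ENNReal.ofReal_mul hq0.le, ← ENNReal.ofReal_add (by positivity) (by positivity)]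
  refine ENNReal.ofReal_le_ofReal ?_
  simpa using h

/-- the telescoped convexity inequality -/
theorem sk_mt_cvx_sum (a : ℕ → ℝ≥0∞) {q : ℝ} (hq : 1 ≤ q) (n : ℕ) :
    (∑ j ∈ Finset.range (n + 1), a j) ^ q ≤ ENNReal.ofReal q * ∑ k ∈ Finset.range (n + 1), a k * (∑ j ∈ Finset.range (k + 1), a j) ^ (q - 1) := by
  have hq0 : 0 < q := by linarith
  induction n with
  | zero =>
    have h := sk_mt_cvx 0 (a 0) hq
    simpa [ENNReal.zero_rpow_of_pos hq0] using h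
  | succ n ih =>
    rw [Finset.sum_range_succ (fun j => a j) (n + 1), Finset.sum_range_succ (fun k => a k * (∑ j ∈ Finset.range (k + 1), a j) ^ (q - 1)) (n + 1), mul_add]
    refine (sk_mt_cvx _ _ hq).trans (add_le_add ih ?_)
    rw [Finset.sum_range_succ (fun j => a j) (n + 1)]

/-- Abel summation without subtraction: `B` nondecreasing, `b` its increments -/
theorem sk_mt_abel (a B : ℕ → ℝ≥0∞) (hB : Monotone B) (n : ℕ) :
    ∑ k ∈ Finset.range (n + 1), a k * B k =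
      ∑ j ∈ Finset.range (n + 1), (∑ k ∈ Finset.Icc j n, a k) * (B j - if j = 0 then 0 else B (j - 1)) := by
  have hsum : ∀ k, ∑ j ∈ Finset.range (k + 1), (B j - if j = 0 then 0 else B (j - 1)) = B k := by
    intro k
    induction k with
    | zero => simp
    | succ k ih =>
      rw [Finset.sum_range_succ, ih]
      simp only [Nat.add_eq_zero_iff, one_ne_zero, and_false, if_false, Nat.add_sub_cancel]
      rw [add_comm]
      exact tsub_add_cancel_of_le (hB (Nat.le_succ k))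
  calc ∑ k ∈ Finset.range (n + 1), a k * B k
      = ∑ k ∈ Finset.range (n + 1), ∑ j ∈ Finset.range (k + 1), a k * (B j - if j = 0 then 0 else B (j - 1)) := by
        refine Finset.sum_congr rfl fun k _ => ?_
        rw [← Finset.mul_sum, hsum]
    _ = ∑ j ∈ Finset.range (n + 1), ∑ k ∈ Finset.Icc j n, a k * (B j - if j = 0 then 0 else B (j - 1)) := by
        refine Finset.sum_comm' fun k j => ?_
        simp only [Finset.mem_range, Finset.mem_Icc]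
        omega
    _ = _ := by
        refine Finset.sum_congr rfl fun j _ => ?_
        rw [Finset.sum_mul]


section gn

variable {Ω : Type*} {m0 : MeasurableSpace Ω} {μ : Measure Ω}

/-- **Garsia-Neveu**, before absorption -/
theorem sk_mt_gn_pre (𝒢 : Filtration ℕ m0) {a : ℕ → Ω → ℝ≥0∞} {g : Ω → ℝ≥0∞} {n : ℕ} (ha : ∀ k, Measurable[𝒢 k] (a k)) (hg : Measurable g)
    (h : ∀ k ≤ n, ∀ s, MeasurableSet[𝒢 k] s → ∫⁻ ω in s, ∑ j ∈ Finset.Icc k n, a j ω ∂μ ≤ ∫⁻ ω in s, g ω ∂μ) {q : ℝ} (hq : 1 ≤ q) :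
    ∫⁻ ω, (∑ j ∈ Finset.range (n + 1), a j ω) ^ q ∂μ ≤ ENNReal.ofReal q * ∫⁻ ω, g ω * (∑ j ∈ Finset.range (n + 1), a j ω) ^ (q - 1) ∂μ := by
  have hq1 : 0 ≤ q - 1 := by linarith
  have ha0 : ∀ k, Measurable (a k) := fun k => (ha k).mono (𝒢.le k) le_rfl
  obtain ⟨B, hBdef⟩ : ∃ B : ℕ → Ω → ℝ≥0∞, B = fun k ω => (∑ j ∈ Finset.range (k + 1), a j ω) ^ (q - 1) := ⟨_, rfl⟩
  have hBm : ∀ k, Measurable[𝒢 k] (B k) := by
    intro k
    rw [hBdef]
    refine Measurable.pow_const (Finset.measurable_sum _ fun j hj => ?_) _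
    exact (ha j).mono (𝒢.mono (by have := Finset.mem_range.1 hj; omega)) le_rfl
  have hBmono : ∀ ω, Monotone fun k => B k ω := by
    intro ω k k' hkk
    rw [hBdef]
    exact ENNReal.rpow_le_rpow (Finset.sum_le_sum_of_subset (Finset.range_mono (by omega))) hq1
  obtain ⟨b, hbdef⟩ : ∃ b : ℕ → Ω → ℝ≥0∞, b = fun j ω => B j ω - if j = 0 then 0 else B (j - 1) ω := ⟨_, rfl⟩
  have hbm : ∀ j, Measurable[𝒢 j] (b j) := by
    intro j
    rw [hbdef]
    rcases Nat.eq_zero_or_pos j with rfl | hj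
    · simpa using hBm 0
    · simp only [hj.ne', if_false]
      exact (hBm j).sub ((hBm (j - 1)).mono (𝒢.mono (Nat.sub_le j 1)) le_rfl)
  have hbsum : ∀ ω, ∑ j ∈ Finset.range (n + 1), b j ω = B n ω := by
    intro ω
    have h1 := sk_mt_abel (fun k => if k = n then 1 else 0) (fun k => B k ω) (hBmono ω) n
    have e1 : ∑ k ∈ Finset.range (n + 1), (if k = n then (1 : ℝ≥0∞) else 0) * B k ω = B n ω := by
      simp [Finset.sum_ite_eq']
    have e2 : ∀ j ∈ Finset.range (n + 1), ∑ k ∈ Finset.Icc j n, (if k = n then (1 : ℝ≥0∞) else 0) = 1 := by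
      intro j hj
      have : n ∈ Finset.Icc j n := Finset.mem_Icc.2 ⟨by have := Finset.mem_range.1 hj; omega, le_rfl⟩
      simp [Finset.sum_ite_eq', this]
    rw [e1] at h1
    rw [h1, hbdef]
    exact Finset.sum_congr rfl fun j hj => by rw [e2 j hj, one_mul]
  have hpt : ∀ ω, (∑ j ∈ Finset.range (n + 1), a j ω) ^ q ≤
      ENNReal.ofReal q * ∑ j ∈ Finset.range (n + 1), (∑ k ∈ Finset.Icc j n, a k ω) * b j ω := by
    intro ω
    have h1 := sk_mt_cvx_sum (fun j => a j ω) hq n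
    have h2 := sk_mt_abel (fun j => a j ω) (fun k => B k ω) (hBmono ω) n
    have h3 : ∑ k ∈ Finset.range (n + 1), a k ω * (∑ j ∈ Finset.range (k + 1), a j ω) ^ (q - 1) = ∑ k ∈ Finset.range (n + 1), a k ω * B k ω := by
      rw [hBdef]
    rw [h3, h2] at h1
    rw [hbdef]
    exact h1
  have hT : ∀ j, Measurable fun ω => ∑ k ∈ Finset.Icc j n, a k ω := fun j => Finset.measurable_sum _ fun k _ => ha0 k
  have hb0 : ∀ j, Measurable (b j) := fun j => (hbm j).mono (𝒢.le j) le_rfl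
  have hTb : ∀ j, Measurable fun ω => (∑ k ∈ Finset.Icc j n, a k ω) * b j ω := fun j => (hT j).mul (hb0 j)
  have hgb : ∀ j, Measurable fun ω => g ω * b j ω := fun j => hg.mul (hb0 j)
  calc ∫⁻ ω, (∑ j ∈ Finset.range (n + 1), a j ω) ^ q ∂μ
      ≤ ∫⁻ ω, ENNReal.ofReal q * ∑ j ∈ Finset.range (n + 1), (∑ k ∈ Finset.Icc j n, a k ω) * b j ω ∂μ := lintegral_mono hpt
    _ = ENNReal.ofReal q * ∑ j ∈ Finset.range (n + 1), ∫⁻ ω, (∑ k ∈ Finset.Icc j n, a k ω) * b j ω ∂μ := by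
        rw [lintegral_const_mul _ (Finset.measurable_sum _ fun j _ => hTb j), lintegral_finsetSum _ fun j _ => hTb j]
    _ ≤ ENNReal.ofReal q * ∑ j ∈ Finset.range (n + 1), ∫⁻ ω, g ω * b j ω ∂μ := by
        refine mul_le_mul_right (Finset.sum_le_sum fun j hj => ?_) _
        exact sk_mt_test (𝒢.le j) (hT j) hg (hbm j) (h j (by have := Finset.mem_range.1 hj; omega))
    _ = ENNReal.ofReal q * ∫⁻ ω, g ω * (∑ j ∈ Finset.range (n + 1), a j ω) ^ (q - 1) ∂μ := by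
        rw [← lintegral_finsetSum _ fun j _ => hgb j]
        congr 1
        refine lintegral_congr fun ω => ?_
        rw [← Finset.mul_sum, hbsum ω, hBdef]

/-- **Garsia-Neveu** -/
theorem sk_mt_gn (𝒢 : Filtration ℕ m0) {a : ℕ → Ω → ℝ≥0∞} {g : Ω → ℝ≥0∞} {n : ℕ} (ha : ∀ k, Measurable[𝒢 k] (a k)) (hg : Measurable g)
    (h : ∀ k ≤ n, ∀ s, MeasurableSet[𝒢 k] s → ∫⁻ ω in s, ∑ j ∈ Finset.Icc k n, a j ω ∂μ ≤ ∫⁻ ω in s, g ω ∂μ) {q : ℝ} (hq : 1 ≤ q)
    (hfin : ∫⁻ ω, (∑ j ∈ Finset.range (n + 1), a j ω) ^ q ∂μ ≠ ⊤) :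
    ∫⁻ ω, (∑ j ∈ Finset.range (n + 1), a j ω) ^ q ∂μ ≤ ENNReal.ofReal q ^ q * ∫⁻ ω, g ω ^ q ∂μ := by
  have ha0 : ∀ k, Measurable (a k) := fun k => (ha k).mono (𝒢.le k) le_rfl
  have h1 := sk_mt_gn_pre 𝒢 ha hg h hq
  rcases eq_or_lt_of_le hq with rfl | hq1
  · simpa using h1
  · refine sk_mt_absorb hq1 hfin (h1.trans (mul_le_mul_right ?_ _))
    exact sk_mt_holder hg.aemeasurable (Finset.measurable_sum _ fun j _ => ha0 j).aemeasurable hq1

/-- **dual Doob inequality** (abstract conditional expectations `a k` of the non-adapted `V k`) -/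
theorem sk_mt_dual (𝒢 : Filtration ℕ m0) {a V : ℕ → Ω → ℝ≥0∞} {n : ℕ} (ha : ∀ k, Measurable[𝒢 k] (a k)) (hV : ∀ k, Measurable (V k))
    (h : ∀ k ≤ n, ∀ s, MeasurableSet[𝒢 k] s → ∫⁻ ω in s, a k ω ∂μ ≤ ∫⁻ ω in s, V k ω ∂μ) {q : ℝ} (hq : 1 ≤ q)
    (hfin : ∫⁻ ω, (∑ j ∈ Finset.range (n + 1), a j ω) ^ q ∂μ ≠ ⊤) :
    ∫⁻ ω, (∑ j ∈ Finset.range (n + 1), a j ω) ^ q ∂μ ≤ ENNReal.ofReal q ^ q * ∫⁻ ω, (∑ j ∈ Finset.range (n + 1), V j ω) ^ q ∂μ := by
  have ha0 : ∀ k, Measurable (a k) := fun k => (ha k).mono (𝒢.le k) le_rfl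
  refine sk_mt_gn 𝒢 ha (Finset.measurable_sum _ fun j _ => hV j) ?_ hq hfin
  intro k hk s hs
  rw [lintegral_finsetSum _ fun j _ => ha0 j, lintegral_finsetSum _ fun j _ => hV j]
  calc ∑ j ∈ Finset.Icc k n, ∫⁻ ω in s, a j ω ∂μ ≤ ∑ j ∈ Finset.Icc k n, ∫⁻ ω in s, V j ω ∂μ := by
        refine Finset.sum_le_sum fun j hj => ?_
        obtain ⟨h1, h2⟩ := Finset.mem_Icc.1 hj
        exact h j h2 s (𝒢.mono h1 s hs)
    _ ≤ ∑ j ∈ Finset.range (n + 1), ∫⁻ ω in s, V j ω ∂μ := by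
        refine Finset.sum_le_sum_of_subset fun j hj => ?_
        exact Finset.mem_range.2 (by have := (Finset.mem_Icc.1 hj).2; omega)

end gn

theorem sk_mt_core_eqns_cite : True := by
  have := @skMtMax.eq_1.{0}
  trivial

end Claimed.Agent.R286
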