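import Claimed.Agent.R286.Box.MartCore

/-!
# Row 286, folder Box, file MartSq : MARTINGALE INEQUALITIES FOR MATHLIB MARTINGALES      (helper22; prefix `sk_mt_`)      NO SORRY

`E` = any real Hilbert space (e.g. `EuclideanSpace ℝ (Fin m)`), `ℱ : Filtration ℕ m0`, `μ` finite, `f : ℕ → Ω → E`, `Martingale f ℱ μ`.      ALL CONSTANTS ARE DIMENSION FREE;   NO INTEGRABILITY HYPOTHESIS BEYOND `Martingale`.
* `sk_mt_orth`        conditional orthogonality:   `∫_s |x l - x k|² = ∑_{k ≤ j < l} ∫_s |x (j+1) - x j|²`,   `s ∈ ℱ k`.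
* `sk_mt_norm_sub`    `∫_s |x k| ≤ ∫_s |x n|`,   `s ∈ ℱ k`, `k ≤ n`.
* `sk_mt_doob_norm`   **Doob**:   `∫ (max_{k ≤ n} |f k|)^p ≤ (p/(p-1))^p ∫ |f n|^p`,   `p > 1`.
* `sk_mt_burk`        **Burkholder (square function ≤ terminal value)**:   `∫ (∑_{j<n} |f (j+1) - f j|²)^q ≤ (32 q)^q ∫ |f n - f 0|^(2q)`,   real `q ≥ 1`      (LL (global-grid) at one fixed shift of the grid).
* `sk_mt_dual_ce`     **dual Doob**:   `∫ (∑_{k ≤ n} μ[V k|ℱ k])^q ≤ q^q ∫ (∑_{k ≤ n} V k)^q`,   `V k ≥ 0` integrable, not adapted      (LL (global-dual-doob)).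
Route: Garsia-Neveu (`Box/MartCore.lean`) with `g = 8 (max |y k|)²`, then Doob at the exponent `2 q`.
-/

set_option autoImplicit false
set_option linter.unusedSectionVars false

namespace Claimed.Agent.R286

open MeasureTheory
open scoped ENNReal NNReal RealInnerProductSpace

section sq

variable {Ω : Type*} {m0 : MeasurableSpace Ω} {μ : Measure Ω} {E : Type*} [NormedAddCommGroup E] [InnerProductSpace ℝ E] [CompleteSpace E]

/-- the cross term vanishes -/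
theorem sk_mt_cross [IsFiniteMeasure μ] {m : MeasurableSpace Ω} (hm : m ≤ m0) {Z Y : Ω → E} (hZ : StronglyMeasurable[m] Z)
    (hZY : Integrable (fun ω => ⟪Z ω, Y ω⟫) μ) (hY : Integrable Y μ) (h0 : μ[Y|m] =ᵐ[μ] 0) {s : Set Ω} (hs : MeasurableSet[m] s) :
    ∫ ω in s, ⟪Z ω, Y ω⟫ ∂μ = 0 := by
  obtain ⟨B, hB⟩ : ∃ B : E →L[ℝ] E →L[ℝ] ℝ, ∀ v w, B v w = ⟪v, w⟫ := ⟨innerSL ℝ, fun _ _ => rfl⟩
  have h1 := condExp_bilin_of_stronglyMeasurable_left (μ := μ) B hZ (by simpa only [hB] using hZY) hY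
  simp only [hB] at h1
  rw [← setIntegral_condExp hm hZY hs]
  have h2 : μ[fun ω => ⟪Z ω, Y ω⟫|m] =ᵐ[μ] 0 := by
    filter_upwards [h1, h0] with ω a b
    rw [a, b]
    simp
  rw [setIntegral_congr_ae (g := fun _ => (0 : ℝ)) (hm s hs) (by filter_upwards [h2] with ω a _ using a)]
  simp

/-- the increments of a martingale have zero conditional expectation -/
theorem sk_mt_incr {ℱ : Filtration ℕ m0} [IsFiniteMeasure μ] {x : ℕ → Ω → E} (hx : Martingale x ℱ μ) {k l : ℕ} (hkl : k ≤ l) :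
    μ[x l - x k|ℱ k] =ᵐ[μ] 0 := by
  have h1 := condExp_sub (hx.integrable l) (hx.integrable k) (ℱ k)
  have h2 := hx.condExp_ae_eq hkl
  have h3 : μ[x k|ℱ k] = x k := condExp_of_stronglyMeasurable (ℱ.le k) (hx.stronglyMeasurable k) (hx.integrable k)
  filter_upwards [h1, h2] with ω a b
  rw [a, Pi.sub_apply, b, h3]
  simp

/-- **conditional orthogonality of the increments** -/
theorem sk_mt_orth {ℱ : Filtration ℕ m0} [IsFiniteMeasure μ] {x : ℕ → Ω → E} (hx : Martingale x ℱ μ) {L : ℕ} (h2 : ∀ k ≤ L, MemLp (x k) 2 μ) {k : ℕ} {s : Set Ω}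
    (hs : MeasurableSet[ℱ k] s) (l : ℕ) (hkl : k ≤ l) (hlL : l ≤ L) :
    ∫ ω in s, ‖x l ω - x k ω‖ ^ 2 ∂μ = ∑ j ∈ Finset.Ico k l, ∫ ω in s, ‖x (j + 1) ω - x j ω‖ ^ 2 ∂μ := by
  induction l, hkl using Nat.le_induction with
  | base => simp
  | succ l hkl ih =>
    rw [Finset.sum_Ico_succ_top hkl, ← ih (by omega)]
    have hA : MemLp (fun ω => x l ω - x k ω) 2 μ := (h2 l (by omega)).sub (h2 k (by omega))
    have hB : MemLp (fun ω => x (l + 1) ω - x l ω) 2 μ := (h2 (l + 1) hlL).sub (h2 l (by omega))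
    have iA : Integrable (fun ω => ‖x l ω - x k ω‖ ^ 2) μ := hA.integrable_norm_pow (by norm_num)
    have iB : Integrable (fun ω => ‖x (l + 1) ω - x l ω‖ ^ 2) μ := hB.integrable_norm_pow (by norm_num)
    have iC : Integrable (fun ω => ⟪x l ω - x k ω, x (l + 1) ω - x l ω⟫) μ := by
      refine (iA.add iB).mono' (hA.1.inner hB.1) (Filter.Eventually.of_forall fun ω => ?_)
      have h1 := norm_inner_le_norm (𝕜 := ℝ) (x l ω - x k ω) (x (l + 1) ω - x l ω)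
      have h3 : 0 ≤ (‖x l ω - x k ω‖ - ‖x (l + 1) ω - x l ω‖) ^ 2 := sq_nonneg _
      have h4 := sq_nonneg ‖x l ω - x k ω‖
      have h5 := sq_nonneg ‖x (l + 1) ω - x l ω‖
      simp only [Pi.add_apply]
      nlinarith
    have hc : ∫ ω in s, ⟪x l ω - x k ω, x (l + 1) ω - x l ω⟫ ∂μ = 0 :=
      sk_mt_cross (ℱ.le l) ((hx.stronglyMeasurable l).sub ((hx.stronglyMeasurable k).mono (ℱ.mono hkl))) iC
        ((hx.integrable (l + 1)).sub (hx.integrable l)) (sk_mt_incr hx (Nat.le_succ l)) (ℱ.mono hkl s hs)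
    have e : ∀ ω, ‖x (l + 1) ω - x k ω‖ ^ 2 = ‖x l ω - x k ω‖ ^ 2 + 2 * ⟪x l ω - x k ω, x (l + 1) ω - x l ω⟫ + ‖x (l + 1) ω - x l ω‖ ^ 2 := by
      intro ω
      rw [← norm_add_sq_real]
      congr 2
      abel
    simp only [e]
    have iAC : Integrable (fun ω => ‖x l ω - x k ω‖ ^ 2 + 2 * ⟪x l ω - x k ω, x (l + 1) ω - x l ω⟫) μ := iA.add (iC.const_mul 2)
    rw [integral_add iAC.integrableOn iB.integrableOn, integral_add iA.integrableOn (iC.const_mul 2).integrableOn,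
      integral_const_mul, hc]
    simp

/-- the norm of a martingale is a submartingale (set integral form) -/
theorem sk_mt_norm_sub {ℱ : Filtration ℕ m0} [IsFiniteMeasure μ] {x : ℕ → Ω → E} (hx : Martingale x ℱ μ) {k n : ℕ} (hkn : k ≤ n) {s : Set Ω}
    (hs : MeasurableSet[ℱ k] s) : ∫⁻ ω in s, ‖x k ω‖ₑ ∂μ ≤ ∫⁻ ω in s, ‖x n ω‖ₑ ∂μ := by
  have hJ := (convexOn_univ_norm (E := E)).map_condExp_le_univ (μ := μ) (ℱ.le k) continuous_norm.lowerSemicontinuous (hx.integrable n) (hx.integrable n).norm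
  have h1 := hx.condExp_ae_eq hkn
  have h2 : ∀ᵐ ω ∂μ, ‖x k ω‖ ≤ (μ[norm ∘ x n|ℱ k]) ω := by
    filter_upwards [hJ, h1] with ω a b
    rw [← b]
    exact a
  have h3 : ∫ ω in s, ‖x k ω‖ ∂μ ≤ ∫ ω in s, ‖x n ω‖ ∂μ := by
    calc ∫ ω in s, ‖x k ω‖ ∂μ ≤ ∫ ω in s, (μ[norm ∘ x n|ℱ k]) ω ∂μ :=
          setIntegral_mono_ae (hx.integrable k).norm.integrableOn integrable_condExp.integrableOn h2
      _ = ∫ ω in s, ‖x n ω‖ ∂μ := setIntegral_condExp (ℱ.le k) (hx.integrable n).norm hs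
  rw [← ofReal_integral_norm_eq_lintegral_enorm (hx.integrable k).integrableOn, ← ofReal_integral_norm_eq_lintegral_enorm (hx.integrable n).integrableOn]
  exact ENNReal.ofReal_le_ofReal h3

/-- conversion of the square integrals -/
theorem sk_mt_conv {v : Ω → E} (hv : MemLp v 2 μ) (s : Set Ω) : ∫⁻ ω in s, ‖v ω‖ₑ ^ 2 ∂μ = ENNReal.ofReal (∫ ω in s, ‖v ω‖ ^ 2 ∂μ) := by
  have iv : Integrable (fun ω => ‖v ω‖ ^ 2) μ := hv.integrable_norm_pow (by norm_num)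
  rw [ofReal_integral_eq_lintegral_ofReal iv.integrableOn (Filter.Eventually.of_forall fun ω => by positivity)]
  refine lintegral_congr fun ω => ?_
  rw [ENNReal.ofReal_pow (norm_nonneg _), ofReal_norm]

/-- square integrability from a finite moment of order `2 q` -/
theorem sk_mt_l2 [IsFiniteMeasure μ] {v : Ω → E} (hm : AEStronglyMeasurable v μ) {q : ℝ} (hq : 1 ≤ q) (h : ∫⁻ ω, ‖v ω‖ₑ ^ (2 * q) ∂μ ≠ ⊤) : MemLp v 2 μ := by
  have h0 : ENNReal.ofReal (2 * q) ≠ 0 := by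
    simp only [ne_eq, ENNReal.ofReal_eq_zero, not_le]; linarith
  have h1 : MemLp v (ENNReal.ofReal (2 * q)) μ := by
    refine ⟨hm, ?_⟩
    rw [eLpNorm_lt_top_iff_lintegral_rpow_enorm_lt_top h0 ENNReal.ofReal_ne_top, ENNReal.toReal_ofReal (by linarith)]
    exact lt_top_iff_ne_top.2 h
  refine h1.mono_exponent ?_
  rw [show (2 : ℝ≥0∞) = ENNReal.ofReal 2 by norm_num]
  exact ENNReal.ofReal_le_ofReal (by linarith)

/-- the shifted filtration -/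
def skMtShift (ℱ : Filtration ℕ m0) : Filtration ℕ m0 :=
  ⟨fun j => ℱ (j + 1), fun _ _ h => ℱ.mono (Nat.succ_le_succ h), fun j => ℱ.le (j + 1)⟩

theorem sk_mt_sq_rpow (t : ℝ≥0∞) (q : ℝ) : (t ^ 2) ^ q = t ^ (2 * q) := by
  rw [← ENNReal.rpow_natCast, ← ENNReal.rpow_mul]
  norm_num

/-- the constant -/
theorem sk_mt_const {q : ℝ} (hq : 1 ≤ q) : ENNReal.ofReal q ^ q * (8 ^ q * ENNReal.ofReal (2 * q / (2 * q - 1)) ^ (2 * q)) ≤ ENNReal.ofReal (32 * q) ^ q := by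
  have hq0 : 0 < q := by linarith
  have h1 : ENNReal.ofReal (2 * q / (2 * q - 1)) ≤ 2 := by
    rw [show (2 : ℝ≥0∞) = ENNReal.ofReal 2 by norm_num]
    refine ENNReal.ofReal_le_ofReal ?_
    rw [div_le_iff₀ (by linarith)]
    linarith
  have h2 : ENNReal.ofReal (2 * q / (2 * q - 1)) ^ (2 * q) ≤ 4 ^ q := by
    calc ENNReal.ofReal (2 * q / (2 * q - 1)) ^ (2 * q) ≤ (2 : ℝ≥0∞) ^ (2 * q) := ENNReal.rpow_le_rpow h1 (by linarith)
      _ = 4 ^ q := by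
          rw [← sk_mt_sq_rpow]
          norm_num
  calc ENNReal.ofReal q ^ q * (8 ^ q * ENNReal.ofReal (2 * q / (2 * q - 1)) ^ (2 * q)) ≤ ENNReal.ofReal q ^ q * (8 ^ q * 4 ^ q) := by gcongr
    _ = ENNReal.ofReal (32 * q) ^ q := by
        rw [← ENNReal.mul_rpow_of_nonneg _ _ hq0.le, ← ENNReal.mul_rpow_of_nonneg _ _ hq0.le]
        congr 1
        rw [ENNReal.ofReal_mul (by norm_num), mul_comm]
        congr 1
        rw [show (32 : ℝ) = 8 * 4 by norm_num, ENNReal.ofReal_mul (by norm_num)]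
        norm_num

/-- **Burkholder's square function inequality** (upper bound of the square function), Hilbert space valued, dimension free, for a martingale null at `0` -/
theorem sk_mt_burk0 {ℱ : Filtration ℕ m0} [IsFiniteMeasure μ] {y : ℕ → Ω → E} (hy : Martingale y ℱ μ) {q : ℝ} (hq : 1 ≤ q) (n : ℕ) :
    ∫⁻ ω, (∑ j ∈ Finset.range (n + 1), ‖y (j + 1) ω - y j ω‖ₑ ^ 2) ^ q ∂μ ≤ ENNReal.ofReal (32 * q) ^ q * ∫⁻ ω, ‖y (n + 1) ω‖ₑ ^ (2 * q) ∂μ := by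
  have hq0 : 0 < q := by linarith
  rcases eq_or_ne (∫⁻ ω, ‖y (n + 1) ω‖ₑ ^ (2 * q) ∂μ) ⊤ with hR | hR
  · rw [hR, ENNReal.mul_top]
    · exact le_top
    · have : ENNReal.ofReal (32 * q) ≠ 0 := by
        simp only [ne_eq, ENNReal.ofReal_eq_zero, not_le]; linarith
      intro h0
      rcases ENNReal.rpow_eq_zero_iff.1 h0 with h | h
      · exact this h.1
      · exact absurd h.2 (by linarith)
  obtain ⟨N, hN⟩ : ∃ N : ℕ → Ω → ℝ≥0∞, N = fun k ω => ‖y k ω‖ₑ := ⟨_, rfl⟩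
  have hNm : ∀ k, Measurable[ℱ k] (N k) := fun k => by rw [hN]; exact (hy.stronglyMeasurable k).enorm
  have hNs : ∀ k ≤ n + 1, ∀ s, MeasurableSet[ℱ k] s → ∫⁻ ω in s, N k ω ∂μ ≤ ∫⁻ ω in s, N (n + 1) ω ∂μ := by
    intro k hk s hs
    rw [hN]
    exact sk_mt_norm_sub hy hk hs
  have hD := sk_mt_doob (μ := μ) ℱ hNm hNs (p := 2 * q) (by linarith)
  have hNn : ∀ ω, N (n + 1) ω = ‖y (n + 1) ω‖ₑ := fun ω => by rw [hN]
  simp only [hNn] at hD
  obtain ⟨M, hM⟩ : ∃ M : Ω → ℝ≥0∞, M = skMtMax N (n + 1) := ⟨_, rfl⟩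
  rw [← hM] at hD
  have hMm : Measurable M := by
    rw [hM]; exact sk_mt_max_meas (fun k => (hNm k).mono (ℱ.le k) le_rfl) _
  have hle : ∀ k ≤ n + 1, ∀ ω, ‖y k ω‖ₑ ≤ M ω := by
    intro k hk ω
    rw [hM]
    have h1 := sk_mt_le_max (f := N) hk ω
    have h3 : N k ω = ‖y k ω‖ₑ := by rw [hN]
    rwa [h3] at h1
  have hMfin : ∫⁻ ω, M ω ^ (2 * q) ∂μ ≠ ⊤ :=
    ne_top_of_le_ne_top (ENNReal.mul_ne_top (ENNReal.rpow_ne_top_of_nonneg (by linarith) ENNReal.ofReal_ne_top) hR) hD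
  have h2 : ∀ k ≤ n + 1, MemLp (y k) 2 μ := by
    intro k hk
    refine sk_mt_l2 (hy.integrable k).aestronglyMeasurable hq (ne_top_of_le_ne_top hMfin (lintegral_mono fun ω => ?_))
    exact ENNReal.rpow_le_rpow (hle k hk ω) (by linarith)
  have hdiff : ∀ a ≤ n + 1, ∀ b ≤ n + 1, ∀ ω, ‖y a ω - y b ω‖ₑ ^ 2 ≤ 4 * M ω ^ 2 := by
    intro a ha b hb ω
    calc ‖y a ω - y b ω‖ₑ ^ 2 ≤ (‖y a ω‖ₑ + ‖y b ω‖ₑ) ^ 2 := by gcongr; exact enorm_sub_le
      _ ≤ (M ω + M ω) ^ 2 := by gcongr <;> [exact hle a ha ω; exact hle b hb ω]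
      _ = 4 * M ω ^ 2 := by ring
  obtain ⟨a, ha⟩ : ∃ a : ℕ → Ω → ℝ≥0∞, a = fun j ω => ‖y (j + 1) ω - y j ω‖ₑ ^ 2 := ⟨_, rfl⟩
  have ham : ∀ j, Measurable[skMtShift ℱ j] (a j) := by
    intro j
    rw [ha]
    exact (((hy.stronglyMeasurable (j + 1)).sub ((hy.stronglyMeasurable j).mono (ℱ.mono (Nat.le_succ j)))).enorm).pow_const 2
  have ha0 : ∀ j, Measurable (a j) := fun j => (ham j).mono ((skMtShift ℱ).le j) le_rfl
  have hg : Measurable fun ω => 8 * M ω ^ 2 := (hMm.pow_const 2).const_mul 8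
  have hyp : ∀ k ≤ n, ∀ s, MeasurableSet[skMtShift ℱ k] s → ∫⁻ ω in s, ∑ j ∈ Finset.Icc k n, a j ω ∂μ ≤ ∫⁻ ω in s, 8 * M ω ^ 2 ∂μ := by
    intro k hk s hs
    have hs' : MeasurableSet[ℱ (k + 1)] s := hs
    have e1 : Finset.Icc k n = insert k (Finset.Ico (k + 1) (n + 1)) := by
      ext j
      simp only [Finset.mem_Icc, Finset.mem_insert, Finset.mem_Ico]
      omega
    have e2 : ∑ j ∈ Finset.Ico (k + 1) (n + 1), ∫⁻ ω in s, a j ω ∂μ = ∫⁻ ω in s, ‖y (n + 1) ω - y (k + 1) ω‖ₑ ^ 2 ∂μ := by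
      have c1 : MemLp (fun ω => y (n + 1) ω - y (k + 1) ω) 2 μ := (h2 (n + 1) le_rfl).sub (h2 (k + 1) (by omega))
      rw [sk_mt_conv c1 s, sk_mt_orth hy h2 hs' (n + 1) (by omega) le_rfl,
        ENNReal.ofReal_sum_of_nonneg fun j _ => integral_nonneg fun ω => by positivity]
      refine Finset.sum_congr rfl fun j hj => ?_
      have hj' := Finset.mem_Ico.1 hj
      have c2 : MemLp (fun ω => y (j + 1) ω - y j ω) 2 μ := (h2 (j + 1) (by omega)).sub (h2 j (by omega))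
      rw [ha]
      exact sk_mt_conv c2 s
    rw [lintegral_finsetSum _ fun j _ => ha0 j, e1, Finset.sum_insert (by simp), e2]
    calc ∫⁻ ω in s, a k ω ∂μ + ∫⁻ ω in s, ‖y (n + 1) ω - y (k + 1) ω‖ₑ ^ 2 ∂μ
        ≤ ∫⁻ ω in s, 4 * M ω ^ 2 ∂μ + ∫⁻ ω in s, 4 * M ω ^ 2 ∂μ := by
          refine add_le_add (lintegral_mono fun ω => ?_) (lintegral_mono fun ω => hdiff _ le_rfl _ (by omega) ω)
          rw [ha]
          exact hdiff _ (by omega) _ (by omega) ω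
      _ = ∫⁻ ω in s, 8 * M ω ^ 2 ∂μ := by
          rw [← lintegral_add_left ((hMm.pow_const 2).const_mul 4)]
          refine lintegral_congr fun ω => ?_
          ring
  have hfin : ∫⁻ ω, (∑ j ∈ Finset.range (n + 1), a j ω) ^ q ∂μ ≠ ⊤ := by
    have h1 : ∀ ω, (∑ j ∈ Finset.range (n + 1), a j ω) ^ q ≤ ((n + 1 : ℕ) * 4 : ℝ≥0∞) ^ q * M ω ^ (2 * q) := by
      intro ω
      rw [← sk_mt_sq_rpow, ← ENNReal.mul_rpow_of_nonneg _ _ hq0.le]
      refine ENNReal.rpow_le_rpow ?_ hq0.le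
      calc ∑ j ∈ Finset.range (n + 1), a j ω ≤ ∑ _j ∈ Finset.range (n + 1), 4 * M ω ^ 2 := by
            refine Finset.sum_le_sum fun j hj => ?_
            have := Finset.mem_range.1 hj
            rw [ha]
            exact hdiff _ (by omega) _ (by omega) ω
        _ = ((n + 1 : ℕ) * 4 : ℝ≥0∞) * M ω ^ 2 := by
            rw [Finset.sum_const, Finset.card_range, nsmul_eq_mul, mul_assoc]
    refine ne_top_of_le_ne_top ?_ (lintegral_mono h1)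
    rw [lintegral_const_mul _ (hMm.pow_const _)]
    refine ENNReal.mul_ne_top (ENNReal.rpow_ne_top_of_nonneg hq0.le ?_) hMfin
    exact ENNReal.mul_ne_top (ENNReal.natCast_ne_top _) (by norm_num)
  have hGN := sk_mt_gn (μ := μ) (skMtShift ℱ) ham hg hyp hq hfin
  have e3 : ∫⁻ ω, (8 * M ω ^ 2) ^ q ∂μ = 8 ^ q * ∫⁻ ω, M ω ^ (2 * q) ∂μ := by
    rw [← lintegral_const_mul _ (hMm.pow_const _)]
    refine lintegral_congr fun ω => ?_
    rw [ENNReal.mul_rpow_of_nonneg _ _ hq0.le, sk_mt_sq_rpow]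
  rw [e3] at hGN
  rw [ha] at hGN
  calc ∫⁻ ω, (∑ j ∈ Finset.range (n + 1), ‖y (j + 1) ω - y j ω‖ₑ ^ 2) ^ q ∂μ
      ≤ ENNReal.ofReal q ^ q * (8 ^ q * ∫⁻ ω, M ω ^ (2 * q) ∂μ) := hGN
    _ ≤ ENNReal.ofReal q ^ q * (8 ^ q * (ENNReal.ofReal (2 * q / (2 * q - 1)) ^ (2 * q) * ∫⁻ ω, ‖y (n + 1) ω‖ₑ ^ (2 * q) ∂μ)) := by gcongr
    _ = (ENNReal.ofReal q ^ q * (8 ^ q * ENNReal.ofReal (2 * q / (2 * q - 1)) ^ (2 * q))) * ∫⁻ ω, ‖y (n + 1) ω‖ₑ ^ (2 * q) ∂μ := by ring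
    _ ≤ ENNReal.ofReal (32 * q) ^ q * ∫⁻ ω, ‖y (n + 1) ω‖ₑ ^ (2 * q) ∂μ := mul_le_mul_left (sk_mt_const hq) _

/-- **Burkholder's square function inequality**, Hilbert space valued, dimension free:   `∫ (∑_{j<n} |f (j+1) - f j|²)^q ≤ (32 q)^q ∫ |f n - f 0|^(2q)`,   real `q ≥ 1`;   no integrability hypothesis -/
theorem sk_mt_burk {ℱ : Filtration ℕ m0} [IsFiniteMeasure μ] {f : ℕ → Ω → E} (hf : Martingale f ℱ μ) {q : ℝ} (hq : 1 ≤ q) (n : ℕ) :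
    ∫⁻ ω, (∑ j ∈ Finset.range n, ‖f (j + 1) ω - f j ω‖ₑ ^ 2) ^ q ∂μ ≤ ENNReal.ofReal (32 * q) ^ q * ∫⁻ ω, ‖f n ω - f 0 ω‖ₑ ^ (2 * q) ∂μ := by
  have hq0 : 0 < q := by linarith
  rcases Nat.eq_zero_or_pos n with rfl | hn
  · simp [ENNReal.zero_rpow_of_pos hq0]
  obtain ⟨n, rfl⟩ : ∃ n', n = n' + 1 := ⟨n - 1, by omega⟩
  have hc : Martingale (fun _ : ℕ => f 0) ℱ μ := martingale_const_fun ℱ μ (hf.stronglyMeasurable 0) (hf.integrable 0)
  have hy : Martingale (fun k ω => f k ω - f 0 ω) ℱ μ := hf.sub hc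
  have h := sk_mt_burk0 hy hq n
  simpa only [sub_sub_sub_cancel_right] using h

/-- **Doob's `L^p` inequality** for the norm of a martingale -/
theorem sk_mt_doob_norm {ℱ : Filtration ℕ m0} [IsFiniteMeasure μ] {f : ℕ → Ω → E} (hf : Martingale f ℱ μ) {p : ℝ} (hp : 1 < p) (n : ℕ) :
    ∫⁻ ω, (skMtMax (fun k ω => ‖f k ω‖ₑ) n ω) ^ p ∂μ ≤ ENNReal.ofReal (p / (p - 1)) ^ p * ∫⁻ ω, ‖f n ω‖ₑ ^ p ∂μ :=
  sk_mt_doob (μ := μ) ℱ (f := fun k ω => ‖f k ω‖ₑ) (fun k => (hf.stronglyMeasurable k).enorm) (fun _ hk _ hs => sk_mt_norm_sub hf hk hs) hp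

end sq

section dual

variable {Ω : Type*} {m0 : MeasurableSpace Ω} {μ : Measure Ω}

/-- set integrals of a conditional expectation, in `ℝ≥0∞` -/
theorem sk_mt_ce_set [IsFiniteMeasure μ] {m : MeasurableSpace Ω} (hm : m ≤ m0) {V : Ω → ℝ} (hV : Integrable V μ) (h0 : 0 ≤ᵐ[μ] V) {s : Set Ω}
    (hs : MeasurableSet[m] s) : ∫⁻ ω in s, ENNReal.ofReal ((μ[V|m]) ω) ∂μ = ∫⁻ ω in s, ENNReal.ofReal (V ω) ∂μ := by
  rw [← ofReal_integral_eq_lintegral_ofReal integrable_condExp.integrableOn (ae_restrict_of_ae (condExp_nonneg h0)),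
    ← ofReal_integral_eq_lintegral_ofReal hV.integrableOn (ae_restrict_of_ae h0), setIntegral_condExp hm hV hs]

/-- **dual Doob inequality** for `μ[V k | ℱ k]`, `V k ≥ 0` integrable, NOT adapted:   `∫ (∑_{k ≤ n} E_k V_k)^q ≤ q^q ∫ (∑_{k ≤ n} V_k)^q` -/
theorem sk_mt_dual_ce [IsFiniteMeasure μ] (ℱ : Filtration ℕ m0) {V : ℕ → Ω → ℝ} (hV : ∀ k, Integrable (V k) μ) (h0 : ∀ k, 0 ≤ᵐ[μ] V k) {q : ℝ} (hq : 1 ≤ q) (n : ℕ) :
    ∫⁻ ω, (∑ k ∈ Finset.range (n + 1), ENNReal.ofReal ((μ[V k|ℱ k]) ω)) ^ q ∂μ ≤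
      ENNReal.ofReal q ^ q * ∫⁻ ω, (∑ k ∈ Finset.range (n + 1), ENNReal.ofReal (V k ω)) ^ q ∂μ := by
  have hq0 : 0 < q := by linarith
  have hqe0 : ENNReal.ofReal q ≠ 0 := by simpa using hq0
  -- measurable versions of the `V k`
  obtain ⟨W, hW⟩ : ∃ W : ℕ → Ω → ℝ, W = fun k => (hV k).aestronglyMeasurable.mk (V k) := ⟨_, rfl⟩
  have hWm : ∀ k, Measurable (W k) := fun k => by rw [hW]; exact (hV k).aestronglyMeasurable.stronglyMeasurable_mk.measurable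
  have hWV : ∀ k, V k =ᵐ[μ] W k := fun k => by rw [hW]; exact (hV k).aestronglyMeasurable.ae_eq_mk
  have hR : ∫⁻ ω, (∑ k ∈ Finset.range (n + 1), ENNReal.ofReal (V k ω)) ^ q ∂μ = ∫⁻ ω, (∑ k ∈ Finset.range (n + 1), ENNReal.ofReal (W k ω)) ^ q ∂μ := by
    refine lintegral_congr_ae ?_
    have : ∀ᵐ ω ∂μ, ∀ k, V k ω = W k ω := ae_all_iff.2 hWV
    filter_upwards [this] with ω h
    simp only [h]
  rw [hR]
  rcases eq_or_ne (∫⁻ ω, (∑ k ∈ Finset.range (n + 1), ENNReal.ofReal (W k ω)) ^ q ∂μ) ⊤ with hT | hT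
  · rw [hT, ENNReal.mul_top]
    · exact le_top
    · intro h
      rcases ENNReal.rpow_eq_zero_iff.1 h with h | h
      · exact hqe0 h.1
      · exact absurd h.2 (by linarith)
  have ham : ∀ k, Measurable[ℱ k] fun ω => ENNReal.ofReal ((μ[V k|ℱ k]) ω) := fun k =>
    ENNReal.measurable_ofReal.comp stronglyMeasurable_condExp.measurable
  have hset : ∀ k ≤ n, ∀ s, MeasurableSet[ℱ k] s → ∫⁻ ω in s, ENNReal.ofReal ((μ[V k|ℱ k]) ω) ∂μ ≤ ∫⁻ ω in s, ENNReal.ofReal (W k ω) ∂μ := by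
    intro k _ s hs
    rw [sk_mt_ce_set (ℱ.le k) (hV k) (h0 k) hs]
    refine le_of_eq (lintegral_congr_ae (ae_restrict_of_ae ?_))
    filter_upwards [hWV k] with ω h
    rw [h]
  refine sk_mt_dual (μ := μ) ℱ ham (fun k => ENNReal.measurable_ofReal.comp (hWm k)) hset hq ?_
  -- finiteness
  have hLq : ∀ k ≤ n, MemLp (V k) (ENNReal.ofReal q) μ := by
    intro k hk
    refine ⟨(hV k).aestronglyMeasurable, ?_⟩
    rw [eLpNorm_lt_top_iff_lintegral_rpow_enorm_lt_top hqe0 ENNReal.ofReal_ne_top, ENNReal.toReal_ofReal hq0.le]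
    refine lt_of_le_of_lt (lintegral_mono_ae ?_) (lt_top_iff_ne_top.2 hT)
    filter_upwards [hWV k, h0 k] with ω h h'
    refine ENNReal.rpow_le_rpow ?_ hq0.le
    have e : ‖V k ω‖ₑ = ENNReal.ofReal (W k ω) := by
      rw [← h, ← ofReal_norm, Real.norm_of_nonneg h']
    rw [e]
    exact Finset.single_le_sum (f := fun k => ENNReal.ofReal (W k ω)) (fun _ _ => zero_le) (Finset.mem_range.2 (by omega))
  have hCq : ∀ k ≤ n, MemLp (μ[V k|ℱ k]) (ENNReal.ofReal q) μ := by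
    intro k hk
    refine ⟨integrable_condExp.aestronglyMeasurable, lt_of_le_of_lt (eLpNorm_condExp_le_eLpNorm _ ?_) (hLq k hk).2⟩
    rw [show (1 : ℝ≥0∞) = ENNReal.ofReal 1 by norm_num]
    exact ENNReal.ofReal_le_ofReal hq
  have hS : MemLp (fun ω => ∑ k ∈ Finset.range (n + 1), (μ[V k|ℱ k]) ω) (ENNReal.ofReal q) μ :=
    memLp_finsetSum _ fun k hk => hCq k (by have := Finset.mem_range.1 hk; omega)
  have hS2 := (eLpNorm_lt_top_iff_lintegral_rpow_enorm_lt_top hqe0 ENNReal.ofReal_ne_top).1 hS.2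
  rw [ENNReal.toReal_ofReal hq0.le] at hS2
  refine ne_of_lt (lt_of_le_of_lt (lintegral_mono_ae ?_) hS2)
  have hnn : ∀ᵐ ω ∂μ, ∀ k, 0 ≤ (μ[V k|ℱ k]) ω := ae_all_iff.2 fun k => condExp_nonneg (h0 k)
  filter_upwards [hnn] with ω h
  refine ENNReal.rpow_le_rpow (le_of_eq ?_) hq0.le
  rw [← ofReal_norm, Real.norm_of_nonneg (Finset.sum_nonneg fun k _ => h k), ENNReal.ofReal_sum_of_nonneg fun k _ => h k]

end dual

theorem sk_mt_sq_eqns_cite : True := by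
  have := @skMtShift.eq_1.{0}
  trivial

end Claimed.Agent.R286
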